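import Vale.Agent.P200.Y.Mixed
import Vale.Agent.P200.Z.Adm
import Vale.Agent.P200.Fin.Main2

/-!
The cycle inequalities (hence lex-plus-powers) for sequences of degrees `(a_0, b, ..., b)`, `b` prime
with `b! ≠ 0`, for quadrics, for at most three forms, and for these followed by forms of fast
growing degrees.
-/

namespace Vale.Agent.P200.Y

open MvPolynomial Module
open Vale.Agent.P200.B Vale.Agent.P200.G Vale.Agent.P200.L Vale.Agent.P200.M Vale.Agent.P200.V
open Vale.Agent.P200.W

universe u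

/-- the condition on the degrees -/
def GrowP (K : Type*) [Field K] {c : ℕ} (a : Fin c → ℕ) : Prop :=
  ∀ i : Fin c, 3 ≤ i.1 → a i = 2 ∨ ∑ j ∈ Finset.univ.filter (fun j => j < i), (a j - 1) < a i ∨
    ((a i).Prime ∧ ((a i).factorial : K) ≠ 0 ∧ ∀ j, j ≤ i → 1 ≤ j.1 → a j = a i)

theorem gr_card {c : ℕ} (i : Fin c) : (Finset.univ.filter fun j : Fin c => j < i).card = i.1 := by
  have : (Finset.univ.filter fun j : Fin c => j < i) = Finset.Iio i := by
    ext j; simp
  rw [this, Fin.card_Iio]

theorem gr_adm {K : Type*} [Field K] {c : ℕ} {a : Fin c → ℕ} (ha : Monotone a)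
    (h2 : ∀ i, 2 ≤ a i) (hU : GrowP K a) : Z.AdmP K a Finset.univ := by
  intro i _ h3
  rw [gr_card] at h3
  rcases hU i h3 with h | h | ⟨h, h', h''⟩
  · exact Or.inl fun j _ hji => le_antisymm ((ha hji).trans h.le) (h2 j)
  · exact Or.inr (Or.inl h)
  · refine Or.inr (Or.inr (Or.inr (Or.inr (Or.inl ⟨h, h', fun j _ hji hj => ?_⟩))))
    rw [gr_card] at hj
    exact h'' j hji.le (by omega)

theorem gr_prefix {K : Type*} [Field K] {c c' : ℕ} (hc' : c' ≤ c) {a : Fin c → ℕ}
    (hU : GrowP K a) : GrowP K fun i : Fin c' => a (Fin.castLE hc' i) := by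
  intro i hi
  rcases hU (Fin.castLE hc' i) hi with h | h | ⟨h, h', h''⟩
  · exact Or.inl h
  · refine Or.inr (Or.inl ?_)
    have key : (Finset.univ.filter fun j => j < i).map (Fin.castLEEmb hc') =
        Finset.univ.filter fun j => j < Fin.castLE hc' i := by
      ext j
      simp only [Finset.mem_map, Finset.mem_filter, Finset.mem_univ, true_and]
      constructor
      · rintro ⟨k, hki, rfl⟩
        exact hki
      · intro hji
        have hj' : j.1 < c' := lt_trans hji i.2
        exact ⟨⟨j.1, hj'⟩, hji, rfl⟩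
    rw [← key, Finset.sum_map] at h
    exact h
  · exact Or.inr (Or.inr ⟨h, h', fun j hji hj => h'' (Fin.castLE hc' j) hji hj⟩)

/-- as many forms as variables, all degrees but the smallest one equal to a prime -/
theorem mixed_zle_base {K : Type u} [Field K] [IsAlgClosed K] {n b : ℕ} (hb : b.Prime)
    (hbK : (b.factorial : K) ≠ 0) (a : Fin n → ℕ) (ha : Monotone a) (h2 : ∀ i, 2 ≤ a i)
    (hn : 2 ≤ n) (hab : ∀ i : Fin n, 1 ≤ i.1 → a i = b) (f : Fin n → MvPolynomial (Fin n) K)
    (hf : ∀ i, (f i).IsHomogeneous (a i)) (hreg : IsRegularSeq f) (p : ℕ) :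
    ZLE K le_rfl a p f := by
  obtain ⟨n, rfl⟩ : ∃ n', n = n' + 1 := ⟨n - 1, by omega⟩
  intro d V hV1 hV2
  have hab' : ∀ i : Fin n, a i.succ = b := fun i => hab _ (by rw [Fin.val_succ]; omega)
  have h0 : a 0 ≤ b := by
    rw [← hab ⟨1, by omega⟩ le_rfl]
    exact ha (Fin.zero_le _)
  obtain ⟨M, hM, hcard, hZ⟩ := mixed_degen hb hbK a (le_trans one_le_two (h2 0)) h0 hab' f hf
    (isMPrimary_of_regular a f hf hreg) V hV1 hV2
  refine (hZ p).trans ((pw_zle (n + 1) a ha h2 (fun i hi => ?_) d p M hM).trans ?_)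
  · rw [hab i hi]
    exact hasPair_prime hb hbK
  · rw [hcard]
    exact le_rfl

/-- **Cycle inequalities.** -/
theorem zle_of_grow_p {K : Type u} [Field K] {n c : ℕ} (h : c ≤ n) (a : Fin c → ℕ)
    (ha : Monotone a) (h2 : ∀ i, 2 ≤ a i) (hU : GrowP K a)
    (f : Fin c → MvPolynomial (Fin n) K) (hf : ∀ i, (f i).IsHomogeneous (a i))
    (hreg : IsRegularSeq f) (p : ℕ) : L.ZLE K h a p f := by
  have hinf : Infinite (AlgebraicClosure K) := IsAlgClosed.instInfinite
  have hfac : ∀ b : ℕ, (b.factorial : K) ≠ 0 → (b.factorial : AlgebraicClosure K) ≠ 0 := by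
    intro b hbK h0
    apply hbK
    have h1 : algebraMap K (AlgebraicClosure K) (b.factorial : K) = 0 := by
      rw [map_natCast, h0]
    exact (map_eq_zero _).1 h1
  have hU' : GrowP (AlgebraicClosure K) a := by
    intro i hi
    rcases hU i hi with h | h | ⟨h, h', h''⟩
    · exact Or.inl h
    · exact Or.inr (Or.inl h)
    · exact Or.inr (Or.inr ⟨h, hfac _ h', h''⟩)
  refine L.zle_of_baseChange (L := AlgebraicClosure K) h a p f hf ?_
  -- the length of the base sequence
  obtain ⟨m, hmc, hm, hgrow⟩ : ∃ m, ∃ _ : m ≤ c, (m ≤ 3 ∨ (∀ i : Fin c, i.1 < m → a i = 2) ∨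
      ∃ b : ℕ, b.Prime ∧ (b.factorial : AlgebraicClosure K) ≠ 0 ∧ 2 ≤ m ∧
        ∀ i : Fin c, i.1 < m → 1 ≤ i.1 → a i = b) ∧
      ∀ i : Fin c, m ≤ i.1 → ∑ j ∈ Finset.univ.filter (fun j => j < i), (a j - 1) < a i := by
    classical
    by_cases hq : ∀ i : Fin c, 3 ≤ i.1 →
        ∑ j ∈ Finset.univ.filter (fun j => j < i), (a j - 1) < a i
    · exact ⟨min 3 c, min_le_right _ _, Or.inl (min_le_left _ _), fun i hi => by
        have := i.2
        exact hq i (by omega)⟩
    · push Not at hq
      obtain ⟨i0, hi0, hi0'⟩ := hq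
      set S : Finset (Fin c) := Finset.univ.filter fun i => 3 ≤ i.1 ∧
        a i ≤ ∑ j ∈ Finset.univ.filter (fun j => j < i), (a j - 1) with hS
      have hne : S.Nonempty := ⟨i0, by simp [hS, hi0, hi0']⟩
      set k := S.max' hne with hk
      have hkS : 3 ≤ k.1 ∧ a k ≤ ∑ j ∈ Finset.univ.filter (fun j => j < k), (a j - 1) :=
        (Finset.mem_filter.1 (S.max'_mem hne)).2
      refine ⟨k.1 + 1, k.2, ?_, fun i hi => ?_⟩
      · right
        rcases hU' k hkS.1 with h4 | h4 | ⟨h4, h4', h4''⟩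
        · left
          intro i hi
          have hik : i ≤ k := by
            rw [Fin.le_def]
            omega
          exact le_antisymm ((ha hik).trans h4.le) (h2 i)
        · exact absurd h4 (not_lt.2 hkS.2)
        · right
          refine ⟨a k, h4, h4', by omega, fun i hi hi1 => h4'' i ?_ hi1⟩
          rw [Fin.le_def]
          omega
      · by_contra hcon
        rw [not_lt] at hcon
        have h5 : i ≤ k := S.le_max' i (by
          rw [hS, Finset.mem_filter]
          exact ⟨Finset.mem_univ _, by omega, hcon⟩)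
        rw [Fin.le_def] at h5
        omega
  refine L.zle_fast hmc a ha h2 hgrow ?_ ?_ n h _ (fun i => (hf i).map _)
    (G.isRegSeq_baseChange f a hf hreg) p
  · intro c' hc' _ n h f hf hreg I hI hfI
    exact Z.egh_final_p (AlgebraicClosure K) h _ (fun _ _ hij => ha (by exact hij))
      (fun _ => h2 _) f hf hreg Finset.univ
      (gr_adm (fun _ _ hij => ha (by exact hij)) (fun _ => h2 _) (gr_prefix hc' hU'))
      (fun i hi => absurd (Finset.mem_univ i) hi) I hI hfI
  · intro g hg hgreg p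
    rcases hm with hm | hm | ⟨b, hb, hbK, hm2, hm⟩
    · exact L.zle_base_three hm _ (fun _ _ hij => ha (by exact hij)) (fun _ => h2 _) g hg hgreg p
    · have h6 : (fun i : Fin m => a (Fin.castLE hmc i)) = fun _ => 2 := by
        funext i
        exact hm _ i.2
      have hg' : ∀ i, (g i).IsHomogeneous 2 := fun i => by
        have := hg i
        rwa [hm _ i.2] at this
      rw [h6]
      exact M.quad_zle' le_rfl g hg' hgreg p
    · exact mixed_zle_base hb hbK _ (fun _ _ hij => ha (by exact hij)) (fun _ => h2 _) hm2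
        (fun i hi => hm _ i.2 hi) g hg hgreg p

end Vale.Agent.P200.Y
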