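import Vale.Agent.P200.Y.Defs
import Vale.Agent.P200.W.Alg
import Vale.Agent.P200.W.Point

/-!
Pairs, and lex-plus-powers for forms with division ring points.
-/

namespace Vale.Agent.P200.Y

open MvPolynomial Module
open Vale.Agent.P200.B Vale.Agent.P200.G Vale.Agent.P200.L Vale.Agent.P200.M Vale.Agent.P200.V
open Vale.Agent.P200.W

universe u

theorem y8_wsum_comm {K : Type*} [Field K] {A : Type*} [Ring A] [Algebra K A] {ζ : K} (x y : A)
    (h : x * y = ζ • (y * x)) (N : ℕ) :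
    ∀ m, wsum x y N m = w1_g ζ N m • (y ^ m * x ^ (N - m)) := by
  induction N with
  | zero =>
    intro m
    cases m with
    | zero => simp [wsum, w1_g]
    | succ m => simp [wsum, w1_g]
  | succ N ih =>
    intro m
    cases m with
    | zero =>
      rw [wsum, ih 0, w1_g_zero, w1_g_zero, pow_zero, one_smul, one_smul, one_mul, one_mul,
        Nat.sub_zero, Nat.sub_zero, pow_succ']
    | succ m =>
      have h1 : x * wsum x y N (m + 1) =
          (ζ ^ (m + 1) * w1_g ζ N (m + 1)) • (y ^ (m + 1) * x ^ (N + 1 - (m + 1))) := by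
        by_cases hm : N < m + 1
        · rw [w1_wsum_lt x y N _ hm, w1_g_lt ζ N _ hm, mul_zero, mul_zero, zero_smul]
        · rw [ih, mul_smul_comm, ← mul_assoc, w1_comm x y h, smul_mul_assoc, smul_smul, mul_assoc,
            ← pow_succ', mul_comm (w1_g ζ N (m + 1)), show N - (m + 1) + 1 = N + 1 - (m + 1) by omega]
      have h2 : y * wsum x y N m =
          w1_g ζ N m • (y ^ (m + 1) * x ^ (N + 1 - (m + 1))) := by
        rw [ih, mul_smul_comm, ← mul_assoc, ← pow_succ', show N + 1 - (m + 1) = N - m by omega]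
      rw [wsum, h1, h2, ← add_smul, w1_g]

/-- `x y = ζ y x` gives a pair: `wsum x y N m = w1_g .. • (y^m x^(N-m))` (see `w1_expand` in
`W/Binom.lean`), and the Gaussian binomials are nonzero for exponents smaller than the order of
`ζ`. -/
theorem hasPair_of_comm {K : Type u} [Field K] {N : ℕ} (hN : 2 ≤ N) {ζ : K}
    (hζ : IsPrimitiveRoot ζ N) {D : Type u} [DivisionRing D] [Algebra K D] {x y : D} (hx : x ≠ 0)
    (hy : y ≠ 0) (h : x * y = ζ • (y * x)) : HasPair K N := by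
  refine ⟨D, inferInstance, inferInstance, x, y, hx, ?_, ?_⟩
  · intro m hm hmN
    rw [y8_wsum_comm x y h]
    obtain ⟨N', rfl⟩ : ∃ N', N = N' + 1 := ⟨N - 1, by omega⟩
    obtain ⟨m', rfl⟩ : ∃ m', m = m' + 1 := ⟨m - 1, by omega⟩
    have h1 := w1_g_rel ζ N' m'
    rw [hζ.pow_eq_one, sub_self, zero_mul] at h1
    have h2 : ζ ^ (m' + 1) - 1 ≠ 0 :=
      sub_ne_zero.mpr (hζ.pow_ne_one_of_pos_of_lt (by omega) hmN)
    rw [(mul_eq_zero.mp h1).resolve_left h2, zero_smul]
  · intro i hi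
    rw [y8_wsum_comm x y h]
    have h1 := w1_g_rel ζ i 0
    rw [w1_g_zero, mul_one, zero_add] at h1
    have h2 : ζ ^ (i + 1) - 1 ≠ 0 :=
      sub_ne_zero.mpr (hζ.pow_ne_one_of_pos_of_lt (by omega) hi)
    have h3 : w1_g ζ (i + 1) 1 ≠ 0 := by
      intro h0
      rw [h0, mul_zero] at h1
      exact h2 h1.symm
    exact smul_ne_zero h3 (mul_ne_zero (pow_ne_zero _ hy) (pow_ne_zero _ hx))

open scoped Classical in
/-- the coefficients of the powers of the four variables -/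
noncomputable def y8_w (K : Type*) [Field K] (b : ℕ) (k : Fin (2 * 2)) (j : Fin 2) (m : ℕ) : K :=
  if (k = Q.bl (j, (0 : Fin 2)) ∧ m = 0) ∨ (k = Q.bl (j, (1 : Fin 2)) ∧ m = b) then 1 else 0

theorem y8_bl_ne (i j : Fin 2) : (Q.bl (i, (0 : Fin 2)) : Fin (2 * 2)) ≠ Q.bl (j, (1 : Fin 2)) := by
  intro h
  have h1 := Q.bl.injective h
  rw [Prod.mk.injEq] at h1
  exact absurd h1.2 (by decide)

theorem y8_bl_inj {i j ε : Fin 2} (h : (Q.bl (i, ε) : Fin (2 * 2)) = Q.bl (j, ε)) : i = j := by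
  have h1 := Q.bl.injective h
  rw [Prod.mk.injEq] at h1
  exact h1.1

theorem y8_psi (K : Type*) [Field K] {b : ℕ} (k : Fin (2 * 2)) :
    psi b 2 (y8_w K b) k = X k ^ b := by
  classical
  obtain ⟨⟨i, ε⟩, rfl⟩ := Q.bl.surjective k
  unfold psi
  rw [Finset.sum_eq_single i]
  · fin_cases ε
    · change ∑ m ∈ Finset.range (b + 1), C (y8_w K b (Q.bl (i, (0 : Fin 2))) i m) *
        (X (Q.bl (i, (0 : Fin 2))) ^ (b - m) * X (Q.bl (i, (1 : Fin 2))) ^ m) =
          X (Q.bl (i, (0 : Fin 2))) ^ b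
      rw [Finset.sum_eq_single 0]
      · rw [y8_w, if_pos (Or.inl ⟨rfl, rfl⟩), C_1, one_mul, pow_zero, mul_one, Nat.sub_zero]
      · intro m _ hm
        rw [y8_w, if_neg, C_0, zero_mul]
        rintro (⟨-, h⟩ | ⟨h, -⟩)
        · exact hm h
        · exact y8_bl_ne _ _ h
      · intro h
        exact absurd (Finset.mem_range.mpr (Nat.succ_pos b)) h
    · change ∑ m ∈ Finset.range (b + 1), C (y8_w K b (Q.bl (i, (1 : Fin 2))) i m) *
        (X (Q.bl (i, (0 : Fin 2))) ^ (b - m) * X (Q.bl (i, (1 : Fin 2))) ^ m) =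
          X (Q.bl (i, (1 : Fin 2))) ^ b
      rw [Finset.sum_eq_single b]
      · rw [y8_w, if_pos (Or.inr ⟨rfl, rfl⟩), C_1, one_mul, Nat.sub_self, pow_zero, one_mul]
      · intro m _ hm
        rw [y8_w, if_neg, C_0, zero_mul]
        rintro (⟨h, -⟩ | ⟨-, h⟩)
        · exact y8_bl_ne _ _ h.symm
        · exact hm h
      · intro h
        exact absurd (Finset.mem_range.mpr (Nat.lt_succ_self b)) h
  · intro j _ hj
    refine Finset.sum_eq_zero fun m _ => ?_
    rw [y8_w, if_neg, C_0, zero_mul]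
    have h1 : ∀ δ : Fin 2, (Q.bl (i, ε) : Fin (2 * 2)) ≠ Q.bl (j, δ) := by
      intro δ h
      have h2 := Q.bl.injective h
      rw [Prod.mk.injEq] at h2
      exact hj h2.1.symm
    rintro (⟨h, -⟩ | ⟨h, -⟩)
    · exact h1 _ h
    · exact h1 _ h
  · intro h
    exact absurd (Finset.mem_univ i) h

theorem y8_cc (K : Type*) [Field K] {b : ℕ} (hb : b ≠ 0) (j : Fin 2) :
    cc (y8_w K b) j 0 = yv K (Q.bl (j, (0 : Fin 2))) := by
  classical
  unfold cc
  rw [Finset.sum_eq_single (Q.bl (j, (0 : Fin 2)))]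
  · rw [y8_w, if_pos (Or.inl ⟨rfl, rfl⟩), map_one, one_mul]
  · intro k _ hk
    rw [y8_w, if_neg, map_zero, zero_mul]
    rintro (⟨h, -⟩ | ⟨-, h⟩)
    · exact hk h
    · exact hb h.symm
  · intro h
    exact absurd (Finset.mem_univ _) h

/-- `exists_block_algebra` with `R = 2` and `w` the coefficients of the four powers of the
variables (`psi b 2 w k = X k ^ b`); `x = E 0 0`, `y = E 1 0` are nonzero as `x^b = cc w 0 0 = yv 0`,
`y^b = yv 2` (`wsum x y b 0 = x ^ b`). -/
theorem hasPair_prime {K : Type u} [Field K] [IsAlgClosed K] {b : ℕ} (hb : b.Prime)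
    (hbK : (b.factorial : K) ≠ 0) : HasPair K b := by
  classical
  have hbK' : (b : K) ≠ 0 := by
    intro h
    apply hbK
    obtain ⟨c, hc⟩ := Nat.dvd_factorial hb.pos le_rfl
    rw [hc, Nat.cast_mul, h, zero_mul]
  have : NeZero (b : K) := ⟨hbK'⟩
  obtain ⟨ζ, hζ⟩ := HasEnoughRootsOfUnity.exists_primitiveRoot K b
  have hm : IsMPrimary (Ideal.span (Set.range (psi b 2 (y8_w K b)))) :=
    Q.isMPrimary_of_pow_mem b fun k => Ideal.subset_span ⟨k, y8_psi K k⟩
  obtain ⟨D, iD, iF, E, hE, hw⟩ := exists_block_algebra hb hbK hζ (y8_w K b) hm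
  let iK : Algebra K D := Algebra.compHom D (algebraMap K (FF K (2 * 2)))
  have : IsScalarTower K (FF K (2 * 2)) D :=
    IsScalarTower.of_algebraMap_eq fun _ => rfl
  have hne : ∀ j : Fin 2, E j 0 ≠ 0 := by
    intro j h0
    have h1 := hw j 0 (Nat.zero_le b)
    rw [y8_cc K hb.ne_zero, w16_wsum_zero, h0, zero_pow hb.ne_zero] at h1
    have h2 := (map_eq_zero_iff _ (algebraMap (FF K (2 * 2)) D).injective).1 h1.symm
    exact w16_yv_ne_zero _ h2
  refine hasPair_of_comm hb.two_le hζ (hne 0) (hne 1) ?_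
  rw [hE 0 1 (by decide) 0 0, Algebra.smul_def]
  rfl

end Vale.Agent.P200.Y
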