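import Vale.Agent.P200.Y.Zle
import Vale.Agent.P200.Y.Pair

/-!
Lex-plus-powers for regular sequences of forms of the same prime degree.
-/

namespace Vale.Agent.P200.Y

open MvPolynomial Module
open Vale.Agent.P200.B Vale.Agent.P200.G Vale.Agent.P200.L Vale.Agent.P200.M Vale.Agent.P200.V
open Vale.Agent.P200.W

universe u

/-- adding a power of a variable -/
theorem y9_xim_add {n : ℕ} {D : Type*} [DivisionRing D] (E : Fin n → Fin n → D)
    (hrow : ∀ i j, i ≠ j → ∀ k l, E i k * E j l = E j l * E i k) (m : Fin n →₀ ℕ) (i : Fin n)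
    (k : ℕ) : xim E (m + Finsupp.single i k) = xim E m * M.lin (E i) ^ k := by
  induction k with
  | zero => rw [Finsupp.single_zero, add_zero, pow_zero, mul_one]
  | succ k ih => rw [Finsupp.single_add, ← add_assoc, xim_add E hrow, ih, pow_succ, mul_assoc]

/-- left multiples of the elements of the extended pieces of an ideal -/
theorem y9_mul_mem {K : Type*} [Field K] {n : ℕ} {D : Type*} [DivisionRing D] [Algebra K D]
    (I : Ideal (MvPolynomial (Fin n) K)) {b e : ℕ} {u : YR D n} (hu : u ∈ VD D (piece I b)) :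
    ∀ w : YR D n, w ∈ YD D n e → w * u ∈ VD D (piece I (e + b)) := by
  classical
  unfold VD at hu
  induction hu using Submodule.span_induction with
  | mem x hx =>
    obtain ⟨g, hg, rfl⟩ := hx
    intro w hw
    have h1 : w = ∑ s ∈ w.coeff.support, AddMonoidAlgebra.single s (w.coeff s) :=
      m4_sum_single w
    rw [h1, Finset.sum_mul]
    refine Submodule.sum_mem _ fun s hs => ?_
    have h3 : bD D (monomial s (1 : K)) = (AddMonoidAlgebra.single s 1 : YR D n) := by
      apply AddMonoidAlgebra.ext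
      ext m
      rw [bD_coeff, MvPolynomial.coeff_monomial, AddMonoidAlgebra.coeff_single,
        Finsupp.single_apply]
      split_ifs
      · exact map_one _
      · exact map_zero _
    have h2 : (AddMonoidAlgebra.single s (w.coeff s) : YR D n) * bD D g =
        w.coeff s • bD D (monomial s (1 : K) * g) := by
      rw [map_mul, h3, ← smul_mul_assoc, AddMonoidAlgebra.smul_single, smul_eq_mul, mul_one]
    rw [h2]
    refine Submodule.smul_mem _ _ (Submodule.subset_span ⟨_, ⟨?_, ?_⟩, rfl⟩)
    · exact I.mul_mem_left _ hg.1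
    · have h5 : ∑ i, s i = e := hw s (Finsupp.mem_support_iff.1 hs)
      have h6 : (monomial s (1 : K)).IsHomogeneous e := by
        refine isHomogeneous_monomial 1 ?_
        rw [Finsupp.degree_eq_sum]
        exact h5
      exact h6.mul ((mem_homogeneousSubmodule _ _).1 hg.2)
  | zero =>
    intro w _
    rw [mul_zero]
    exact Submodule.zero_mem _
  | add x y _ _ hx hy =>
    intro w hw
    rw [mul_add]
    exact Submodule.add_mem _ (hx w hw) (hy w hw)
  | smul c x _ hx =>
    intro w hw
    have h1 : w * (c • x) = (w * AddMonoidAlgebra.single 0 c) * x := by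
      rw [w16_smul_eq, mul_assoc]
    rw [h1]
    refine hx _ ?_
    have h2 : (AddMonoidAlgebra.single 0 c : YR D n) ∈ YD D n 0 := m4_single_mem (by simp) c
    exact mul_mem_YD hw h2

/-- passage to a monomial space containing the powers (as `quad_degen`) -/
theorem pw_degen {K : Type u} [Field K] {n : ℕ} {D : Type*} [DivisionRing D] [Algebra K D]
    (a : Fin n → ℕ) (E : Fin n → Fin n → D)
    (hrow : ∀ i j, i ≠ j → ∀ k l, E i k * E j l = E j l * E i k) (hind : LinearIndependent D E)
    (I : Ideal (MvPolynomial (Fin n) K))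
    (hpow : ∀ i, (M.lin (E i) ^ a i : YR D n) ∈ VD D (piece I (a i))) {d : ℕ}
    (V : Submodule K (MvPolynomial (Fin n) K)) (hV1 : piece I (d + 1) ≤ V)
    (hV2 : V ≤ homogeneousSubmodule (Fin n) K (d + 1)) :
    ∃ M : Set (Fin n →₀ ℕ), PwSet n a (d + 1) M ∧ M.ncard = finrank K V ∧
      ∀ p, finrank K (rc X V (homogeneousSubmodule (Fin n) K d) p) ≤ ZS K M d p := by
  refine ⟨trM D E (d + 2) V, ⟨trM_degree E hrow hind hV2, fun m hm ⟨i, hi⟩ => ?_⟩,
    trM_ncard E hrow hind (Nat.lt_succ_self _) hV2,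
    fun p => trM_cycles E hrow hind (Nat.lt_succ_self _) hV2⟩
  refine mem_trM E (VD_mono hV1 ?_)
  set m' := m - Finsupp.single i (a i) with hm'
  have h1 : m = m' + Finsupp.single i (a i) := by
    rw [hm', tsub_add_cancel_of_le]
    rwa [Finsupp.single_le_iff]
  have h2 : ∑ k, m' k + a i = d + 1 := by
    rw [← hm, h1, m4_deg_add]
    congr 1
    simp
  rw [h1, y9_xim_add E hrow, ← h2]
  exact y9_mul_mem I (hpow i) _ (xim_mem E m')

/-- the case of as many forms as variables -/
theorem prime_zle_base {K : Type u} [Field K] [IsAlgClosed K] {n b : ℕ} (hb : b.Prime)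
    (hbK : (b.factorial : K) ≠ 0)
    (f : Fin n → MvPolynomial (Fin n) K)
    (hf : ∀ i, (f i).IsHomogeneous b) (hreg : IsRegularSeq f) (p : ℕ) :
    ZLE K le_rfl (fun _ => b) p f := by
  intro d V hV1 hV2
  obtain ⟨D, iD, iA, E, hrow, hind, hpow⟩ := exists_point hb hbK f hf
    (isMPrimary_of_regular (fun _ => b) f hf hreg)
  obtain ⟨M, hM, hcard, hZ⟩ := pw_degen (fun _ => b) E hrow hind _ hpow V hV1 hV2
  refine (hZ p).trans ((pw_zle n (fun _ => b) monotone_const (fun _ => hb.two_le)
    (fun _ _ => hasPair_prime hb hbK) d p M hM).trans ?_)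
  rw [hcard]
  exact le_rfl

/-- all numbers of variables, all fields with `b! ≠ 0` (as `quad_zle`) -/
theorem prime_zle {K : Type u} [Field K] {n c b : ℕ} (hb : b.Prime) (hbK : (b.factorial : K) ≠ 0)
    (hE : ∀ (K : Type u) [Field K] [Infinite K], (b.factorial : K) ≠ 0 → ∀ (n c : ℕ) (h : c ≤ n)
      (f : Fin c → MvPolynomial (Fin n) K), (∀ i, (f i).IsHomogeneous b) → IsRegularSeq f →
      EGHfor h (fun _ => b) f)
    (h : c ≤ n) (f : Fin c → MvPolynomial (Fin n) K)
    (hf : ∀ i, (f i).IsHomogeneous b) (hreg : IsRegularSeq f) (p : ℕ) :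
    ZLE K h (fun _ => b) p f := by
  have hinf : Infinite (AlgebraicClosure K) := IsAlgClosed.instInfinite
  have hbL : (b.factorial : AlgebraicClosure K) ≠ 0 := by
    intro h0
    apply hbK
    have h1 : algebraMap K (AlgebraicClosure K) (b.factorial : K) = 0 := by
      rw [map_natCast, h0]
    exact (map_eq_zero _).1 h1
  refine zle_of_baseChange (L := AlgebraicClosure K) h _ p f hf ?_
  refine zle_all (fun _ => b) (fun _ => hb.one_lt.le) p (fun _ _ => True)
    (fun _ _ _ _ => trivial) ?_ ?_ n h _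
    (fun i => (hf i).map _) (isRegSeq_baseChange f _ hf hreg) trivial
  · intro n h f hf hreg _
    exact hE _ hbL n c h f hf hreg
  · intro f hf hreg _
    exact prime_zle_base hb hbL f hf hreg p

/-- **Lex-plus-powers for forms of the same prime degree `b`, `b! ≠ 0`.** -/
theorem prime_lpp {K : Type u} [Field K] {n c b : ℕ} (hb : b.Prime) (hbK : (b.factorial : K) ≠ 0)
    (hE : ∀ (K : Type u) [Field K] [Infinite K], (b.factorial : K) ≠ 0 → ∀ (n c : ℕ) (h : c ≤ n)
      (f : Fin c → MvPolynomial (Fin n) K), (∀ i, (f i).IsHomogeneous b) → IsRegularSeq f →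
      EGHfor h (fun _ => b) f)
    (h : c ≤ n) (f : Fin c → MvPolynomial (Fin n) K)
    (hf : ∀ i, (f i).IsHomogeneous b) (hreg : IsRegularSeq f)
    (I : Ideal (MvPolynomial (Fin n) K)) (hI : HomIdeal I)
    (hfI : ∀ i, f i ∈ I) (J : Ideal (MvPolynomial (Fin n) K))
    (hJ : J.restrictScalars K = lexPlusPowers h (fun _ => b) I) (p j : ℕ) :
    betti I p j ≤ betti J p j :=
  betti_le_of_zle h (fun _ => b) (fun _ => hb.one_lt.le) f hf hreg p
    (prime_zle hb hbK hE h f hf hreg p) (prime_zle hb hbK hE h f hf hreg (p + 1)) I hI hfI J hJ j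

end Vale.Agent.P200.Y
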