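import Vale.Agent.P200.Y.Lex

/-! Counting cycles by layers (general exponents version of `zs_layers` in `M/SqZle.lean`). -/

namespace Vale.Agent.P200.Y

open MvPolynomial Module
open Vale.Agent.P200.B Vale.Agent.P200.G Vale.Agent.P200.L Vale.Agent.P200.M Vale.Agent.P200.V
open Vale.Agent.P200.W

universe u

variable {K : Type u} [Field K] {n : ℕ}

/-- no cycles with entries in an empty layer -/
theorem y6_finrank_rc_empty {K : Type*} [Field K] {n : ℕ}
    (U : Submodule K (MvPolynomial (Fin n) K)) {M : Set (Fin n →₀ ℕ)} (hM : M = ∅) (p : ℕ) :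
    finrank K (rc X U (restrictSupport K M) p) = 0 := by
  have h1 : restrictSupport K M = (⊥ : Submodule K (MvPolynomial (Fin n) K)) := by
    rw [hM, restrictSupport_eq_span, Set.image_empty, Submodule.span_empty]
  rw [h1]
  have h2 := finrank_rc_le (K := K) (X : Fin n → MvPolynomial (Fin n) K) U ⊥ p
  rw [finrank_bot, mul_zero] at h2
  exact Nat.le_zero.1 h2

/-- the contribution of the layers: the constant does not depend on `M` (as `zs_layers`:
`zs_eq_zc`; in `zc` the terms `i < N - 1` are in the sum, the term `i = N - 1` (only if `N - 1 ≤ d`)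
is `ZS K (layS M (N-1)) (d+1-N) p` as the layer `N` is full, the later terms are constants; the
terms of the sum with `i > d` vanish as the layer `i + 1` is empty). -/
theorem zs_layers_pw (K : Type*) [Field K] (n d p N : ℕ) (hN : 1 ≤ N) : ∃ C : ℕ,
    ∀ (a : Fin (n + 1) → ℕ) (M : Set (Fin (n + 1) →₀ ℕ)), a (Fin.last n) = N →
      PwSet (n + 1) a (d + 1) M →
      ZS K M d (p + 1) = ZS K (layS M 0) d (p + 1) + C +
        ∑ i ∈ Finset.range (N - 1),
          finrank K (rc X (restrictSupport K (layS M i)) (restrictSupport K (layS M (i + 1))) p) +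
        (if d + 1 < N then 0 else ZS K (layS M (N - 1)) (d + 1 - N) p) := by
  refine ⟨∑ i ∈ Finset.range (d + 1), n.choose (p + 1) * finrank K (Bd K n d (i + 1)) +
    ∑ i ∈ Finset.range (d + 1 - N), finrank K (rc X
      (restrictSupport K {m : Fin n →₀ ℕ | ∑ k, m k + (N + i) = d + 1})
      (restrictSupport K {m : Fin n →₀ ℕ | ∑ k, m k + (N + i + 1) = d + 1}) p),
    fun a M ha hM => ?_⟩
  rw [zs_eq_zc hM.1, zc, Finset.sum_add_distrib]
  have h1 : ∑ i ∈ Finset.range (d + 1), finrank K (rc X (restrictSupport K (layS M i))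
        (restrictSupport K (layS M (i + 1))) p) =
      (∑ i ∈ Finset.range (d + 1 - N), finrank K (rc X
        (restrictSupport K {m : Fin n →₀ ℕ | ∑ k, m k + (N + i) = d + 1})
        (restrictSupport K {m : Fin n →₀ ℕ | ∑ k, m k + (N + i + 1) = d + 1}) p)) +
      (if d + 1 < N then 0 else ZS K (layS M (N - 1)) (d + 1 - N) p) +
      ∑ i ∈ Finset.range (N - 1),
          finrank K (rc X (restrictSupport K (layS M i)) (restrictSupport K (layS M (i + 1))) p) := by
    by_cases hd : d + 1 < N
    · rw [if_pos hd, Nat.sub_eq_zero_of_le hd.le, Finset.sum_range_zero, zero_add, zero_add]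
      refine Finset.sum_subset (Finset.range_subset_range.2 (by omega)) fun i _ hi => ?_
      rw [Finset.mem_range, not_lt] at hi
      refine y6_finrank_rc_empty _ ?_ p
      rw [Set.eq_empty_iff_forall_notMem]
      intro m hm
      have h3 := hM.1 _ hm
      rw [lex_sum_sn] at h3
      omega
    · rw [if_neg hd]
      obtain ⟨e, he⟩ : ∃ e, d + 1 = N + e := ⟨d + 1 - N, by omega⟩
      obtain ⟨N', rfl⟩ : ∃ N', N = N' + 1 := ⟨N - 1, by omega⟩
      have e0 : d + 1 - (N' + 1) = e := by omega
      rw [e0, Nat.add_sub_cancel]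
      have h2 : ∑ i ∈ Finset.range (d + 1), finrank K (rc X (restrictSupport K (layS M i))
          (restrictSupport K (layS M (i + 1))) p) =
          ∑ i ∈ Finset.range (N' + 1 + e), finrank K (rc X (restrictSupport K (layS M i))
          (restrictSupport K (layS M (i + 1))) p) := by rw [he]
      rw [h2, Finset.sum_range_add, Finset.sum_range_succ]
      have h3 : ∑ i ∈ Finset.range e, finrank K (rc X
            (restrictSupport K (layS M (N' + 1 + i)))
            (restrictSupport K (layS M (N' + 1 + i + 1))) p) =
          ∑ i ∈ Finset.range e, finrank K (rc X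
            (restrictSupport K {m : Fin n →₀ ℕ | ∑ k, m k + (N' + 1 + i) = d + 1})
            (restrictSupport K {m : Fin n →₀ ℕ | ∑ k, m k + (N' + 1 + i + 1) = d + 1}) p) := by
        refine Finset.sum_congr rfl fun i _ => ?_
        rw [hM.layS_full (i := N' + 1 + i) (by omega),
          hM.layS_full (i := N' + 1 + i + 1) (by omega)]
      have h4 : finrank K (rc X (restrictSupport K (layS M N'))
          (restrictSupport K (layS M (N' + 1))) p) = ZS K (layS M N') e p := by
        have e2 : restrictSupport K {m : Fin n →₀ ℕ | ∑ k, m k + (N' + 1) = d + 1} =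
            homogeneousSubmodule (Fin n) K e := by
          rw [homogeneousSubmodule_eq_restrict]
          congr 1
          ext m
          show ∑ k, m k + (N' + 1) = d + 1 ↔ ∑ k, m k = e
          omega
        rw [hM.layS_full (i := N' + 1) (by omega), e2, ZS]
      rw [h3, h4]
      omega
  have h2 : ZS K (layS M 0) d (p + 1) = finrank K (rc X (restrictSupport K (layS M 0))
      (homogeneousSubmodule (Fin n) K d) (p + 1)) := rfl
  rw [h1, ← h2]
  omega

end Vale.Agent.P200.Y
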