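import Vale.Agent.P200.Y.Lex

/-! The layer `0` of the lex set containing the powers. -/

namespace Vale.Agent.P200.Y

open MvPolynomial Module
open Vale.Agent.P200.B Vale.Agent.P200.G Vale.Agent.P200.L Vale.Agent.P200.M Vale.Agent.P200.V
open Vale.Agent.P200.W

variable {n : ℕ}

/-- the layers as sets containing the powers -/
theorem y2_layS {a : Fin (n + 1) → ℕ} {D t : ℕ} {M : Set (Fin (n + 1) →₀ ℕ)}
    (hM : PwSet (n + 1) a D M) (ht : t ≤ D) :
    PwSet n (fun i => a i.castSucc) (D - t) (layS M t) := by
  have h : D = D - t + t := by omega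
  rw [h] at hM
  exact hM.layS

/-- **The lexicographic set has the smallest layer `0`.**  As `sq_layer_zero`: otherwise there is
`m` in the layer `0` of the lex set `L` with `m ∉ L_0 := pwLex n a' D |M_0|`; the competing set
`N = ⋃_{i < a last} L_i z^i ∪ (full part)`, `L_i = pwLex n a' (D - i) |M_i|`, has as many elements as
`M`, and `N ⊆ L \ {sn m 0}` by `lex_fill` with `q i = |M_i| - |insideP (D - i)|` for
`i < a last`, `q i = 0` otherwise (closure of the `L_i` by `pw_closure`, for `i ≥ a last` the set
`lexSet .. 0 = insideP` is closed upwards). -/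
theorem pw_layer_zero {a : Fin (n + 1) → ℕ} (ha : Monotone a) (h2 : ∀ i, 2 ≤ a i) {D : ℕ}
    {M : Set (Fin (n + 1) →₀ ℕ)} (hM : PwSet (n + 1) a D M) (hst : Stab (a (Fin.last n)) M) :
    layS (pwLex (n + 1) a D M.ncard) 0 ⊆
      pwLex n (fun i => a i.castSucc) D (layS M 0).ncard := by
  classical
  intro m hm
  by_contra hcon
  have ha' : Monotone (fun i : Fin n => a i.castSucc) := fun i j hij =>
    ha (Fin.castSucc_le_castSucc_iff.2 hij)
  have h2' : ∀ i : Fin n, 2 ≤ (fun i : Fin n => a i.castSucc) i := fun i => h2 _
  have hA := h2 (Fin.last n)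
  have hu : sn m 0 ∈ pwLex (n + 1) a D M.ncard := hm
  have hmD : ∑ k, m k = D := by
    have h1 := mem_lexSet_degree _ _ hu
    rw [lex_sum_sn, add_zero] at h1
    exact h1
  have hmo : m ∈ outside (le_refl n) (fun i : Fin n => a i.castSucc) D := by
    refine ⟨fun l => ?_, hmD⟩
    by_contra hl
    exact hcon (Or.inl ⟨⟨l, not_lt.mp hl⟩, hmD⟩)
  have huo : sn m 0 ∈ outside (le_refl (n + 1)) a D := by
    refine ⟨fun l => ?_, ?_⟩
    · change sn m 0 l < a l
      induction l using Fin.lastCases with
      | last => rw [sn_last]; omega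
      | cast l =>
        rw [sn_castSucc]
        exact hmo.1 l
    · rw [lex_sum_sn, hmD, add_zero]
  -- the competing set
  set N : Set (Fin (n + 1) →₀ ℕ) := {x | ∃ (y : Fin n →₀ ℕ) (i : ℕ), x = sn y i ∧
    ∑ k, y k + i = D ∧ (i < a (Fin.last n) →
      y ∈ pwLex n (fun i => a i.castSucc) (D - i) (layS M i).ncard)} with hN
  have hNsq : PwSet (n + 1) a D N := by
    refine ⟨?_, fun x hx h2 => ?_⟩
    · rintro _ ⟨y, i, rfl, h1, -⟩
      rw [lex_sum_sn]
      exact h1
    · obtain ⟨y, i, rfl⟩ := exists_sn x
      rw [lex_sum_sn] at hx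
      refine ⟨y, i, rfl, hx, fun hi => ?_⟩
      obtain ⟨l, hl⟩ := h2
      induction l using Fin.lastCases with
      | last =>
        rw [sn_last] at hl
        omega
      | cast l =>
        rw [sn_castSucc] at hl
        exact (pwLex_pwSet _ _ _ _).2 y (by omega) ⟨l, hl⟩
  have hlay : ∀ (y : Fin n →₀ ℕ) (i : ℕ), sn y i ∈ N ↔
      ∑ k, y k + i = D ∧ (i < a (Fin.last n) →
      y ∈ pwLex n (fun i => a i.castSucc) (D - i) (layS M i).ncard) := by
    intro y i
    constructor
    · rintro ⟨y', i', h1, h2⟩
      obtain ⟨rfl, rfl⟩ := sn_injective h1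
      exact h2
    · intro h
      exact ⟨y, i, rfl, h⟩
  have hNi : ∀ i, i < a (Fin.last n) → (layS N i).ncard = (layS M i).ncard := by
    intro i hi
    by_cases hiD : i ≤ D
    · have hL : layS N i = pwLex n (fun i => a i.castSucc) (D - i) (layS M i).ncard := by
        ext y
        change sn y i ∈ N ↔ _
        rw [hlay]
        constructor
        · rintro ⟨-, h⟩
          exact h hi
        · intro h
          have h5 := (pwLex_pwSet _ _ _ _).1 y h
          exact ⟨by omega, fun _ => h⟩
      rw [hL]
      exact ncard_pwLex (y2_layS hM hiD)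
    · have hemp : ∀ S : Set (Fin (n + 1) →₀ ℕ), PwSet (n + 1) a D S → layS S i = ∅ := by
        intro S hS
        ext y
        refine ⟨fun hy => ?_, fun hy => absurd hy (Set.notMem_empty y)⟩
        have h5 := hS.1 _ hy
        rw [lex_sum_sn] at h5
        exfalso
        omega
      rw [hemp N hNsq, hemp M hM]
  have hcard : N.ncard = M.ncard := by
    rw [hNsq.ncard_layS, hM.ncard_layS]
    congr 1
    exact Finset.sum_congr rfl fun i hi => hNi i (Finset.mem_range.1 hi)
  -- the closure property
  set q : ℕ → ℕ := fun t => if t < a (Fin.last n) then (layS M t).ncard -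
      (insideP (le_refl n) (fun i : Fin n => a i.castSucc) (D - t)).ncard else 0 with hq
  have hqL : ∀ t, t < a (Fin.last n) →
      lexSet (le_refl n) (fun i : Fin n => a i.castSucc) (D - t) (q t) =
        pwLex n (fun i => a i.castSucc) (D - t) (layS M t).ncard := by
    intro t ht
    have hqt : q t = (layS M t).ncard -
        (insideP (le_refl n) (fun i : Fin n => a i.castSucc) (D - t)).ncard := by
      rw [hq]
      exact if_pos ht
    rw [hqt]
    rfl
  have hcl : ∀ t < D, ∀ x ∈ lexSet (le_refl n) (fun i : Fin n => a i.castSucc) (D - (t + 1))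
      (q (t + 1)), ∀ j : Fin n, x + Finsupp.single j 1 ∈
        lexSet (le_refl n) (fun i : Fin n => a i.castSucc) (D - t) (q t) := by
    intro t ht x hx j
    by_cases ht1 : t + 1 < a (Fin.last n)
    · rw [hqL _ ht1] at hx
      rw [hqL t (by omega)]
      have hDt : D - t = D - (t + 1) + 1 := by omega
      have h0 : PwSet n (fun i => a i.castSucc) (D - t) (layS M t) := y2_layS hM ht.le
      rw [hDt] at h0 ⊢
      exact pw_closure ha' h2' h0 (y2_layS hM ht) (hst t ht1) x hx j
    · have hq2 : q (t + 1) = 0 := by
        rw [hq]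
        exact if_neg ht1
      rw [hq2] at hx
      rcases hx with hx | hx
      · obtain ⟨⟨l, hl⟩, hx2⟩ := hx
        refine Or.inl ⟨⟨l, ?_⟩, ?_⟩
        · rw [Finsupp.add_apply]
          omega
        · rw [sum_add_single, hx2]
          omega
      · exact absurd hx.2 (Nat.not_lt_zero _)
  -- it is contained in the lexicographic set without `sn m 0`
  have hsub : N ⊆ pwLex (n + 1) a D M.ncard \ {sn m 0} := by
    rintro _ ⟨y, i, rfl, h1, h2⟩
    have hdeg : ∑ k, sn y i k = D := by
      rw [lex_sum_sn]
      exact h1
    have hne : sn y i ≠ sn m 0 := by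
      intro H
      obtain ⟨rfl, rfl⟩ := sn_injective H
      exact hcon (h2 (by omega))
    refine ⟨?_, hne⟩
    by_cases hin : ∃ l, a l ≤ sn y i l
    · exact Or.inl ⟨hin, hdeg⟩
    · push Not at hin
      have ho : sn y i ∈ outside (le_refl (n + 1)) a D := ⟨fun l => hin l, hdeg⟩
      rcases lexGT_total hne with h3 | h3
      · exact lexSet_up _ _ ho h3 hu huo
      · exfalso
        apply hcon
        obtain ⟨k, hk, hk'⟩ := h3
        have hi1 : i < a (Fin.last n) := by
          have := hin (Fin.last n)
          rwa [sn_last] at this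
        have hyo : y ∈ outside (le_refl n) (fun i : Fin n => a i.castSucc) (D - i) := by
          refine ⟨fun l => ?_, by omega⟩
          have := hin l.castSucc
          rwa [sn_castSucc] at this
        have hgt : lexGT m y := by
          induction k using Fin.lastCases with
          | last =>
            rw [sn_last, sn_last] at hk
            omega
          | cast k =>
            rw [sn_castSucc, sn_castSucc] at hk
            refine ⟨k, hk, fun j hj => ?_⟩
            have h5 := hk' j.castSucc (Fin.castSucc_lt_castSucc_iff.2 hj)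
            rw [sn_castSucc, sn_castSucc] at h5
            exact h5
        have h6 := lex_fill (le_refl n) (fun i : Fin n => a i.castSucc) D q hcl m hmo i (by omega)
          y (by rw [hqL i hi1]; exact h2 hi1) hyo hgt
        have h7 := hqL 0 (by omega)
        rw [Nat.sub_zero] at h7
        rw [h7] at h6
        exact h6
  have hfin := (pwLex_pwSet (n + 1) a D M.ncard).finite
  have h1 := Set.ncard_le_ncard hsub (hfin.subset Set.sdiff_subset)
  have h2 := Set.ncard_sdiff_singleton_lt_of_mem hu hfin
  rw [ncard_pwLex hM] at h2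
  omega

end Vale.Agent.P200.Y
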