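import Vale.Agent.P200.Y.Lex

/-! The last layer of the lex set containing the powers. -/

namespace Vale.Agent.P200.Y

open MvPolynomial Module
open Vale.Agent.P200.B Vale.Agent.P200.G Vale.Agent.P200.L Vale.Agent.P200.M Vale.Agent.P200.V
open Vale.Agent.P200.W

variable {n : ℕ}

/-- a set of the form `⋃_{i ≤ N} L_i z^i ∪ (full part)` contains the powers -/
theorem y3_compete {a : Fin (n + 1) → ℕ} {D N : ℕ} (hN : a (Fin.last n) = N + 1)
    (v : ℕ → ℕ) : PwSet (n + 1) a D {x | ∃ (y : Fin n →₀ ℕ) (i : ℕ), x = sn y i ∧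
      ∑ k, y k + i = D ∧ (N + 1 ≤ i ∨ (i ≤ N ∧ y ∈ pwLex n (fun i => a i.castSucc) (D - i) (v i)))} := by
  refine ⟨?_, fun x hx h2 => ?_⟩
  · rintro _ ⟨y, i, rfl, h1, -⟩
    rw [lex_sum_sn]
    exact h1
  · obtain ⟨y, i, rfl⟩ := exists_sn x
    rw [lex_sum_sn] at hx
    refine ⟨y, i, rfl, hx, ?_⟩
    by_cases hi : N + 1 ≤ i
    · exact Or.inl hi
    · obtain ⟨l, hl⟩ := h2
      induction l using Fin.lastCases with
      | last =>
        rw [sn_last, hN] at hl
        exact Or.inl hl
      | cast l =>
        rw [sn_castSucc] at hl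
        exact Or.inr ⟨by omega, (pwLex_pwSet n _ (D - i) (v i)).2 y (by omega) ⟨l, hl⟩⟩

/-- **... and the largest layer `N` with `N + 1 = a (last)`**.  Otherwise there is
`m ∈ L_N := pwLex n a' e |M_N|` with `sn m N ∉ L` (the lex set), `m` outside `P`.  Then
`L ⊆ (competing set N of pw_layer_zero) \ {sn m N}`: for `sn y i ∈ L`, `i ≤ N`, `y` outside `P`
(inside is clear): `sn y i` is lex greater than `sn m N` (`lexSet_up`), hence (`i ≤ N`; equality
only for `y = m`, `i = N`, excluded) `y` is lex greater than `m`, or `y = m` and `i > N` (excluded); so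
`y ∈ L_i` by `lex_fill` applied with `D := e + N - i`, `q t := |M_(i+t)| - ..` (zero for
`i + t > N`) and the index `N - i`.  The cardinalities contradict each other. -/
theorem pw_layer_last {a : Fin (n + 1) → ℕ} (ha : Monotone a) (h2 : ∀ i, 2 ≤ a i) {e N : ℕ}
    (hN : a (Fin.last n) = N + 1) {M : Set (Fin (n + 1) →₀ ℕ)}
    (hM : PwSet (n + 1) a (e + N) M) (hst : Stab (a (Fin.last n)) M) :
    pwLex n (fun i => a i.castSucc) e (layS M N).ncard ⊆
      layS (pwLex (n + 1) a (e + N) M.ncard) N := by
  classical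
  obtain ⟨D, hD⟩ : ∃ D, D = e + N := ⟨_, rfl⟩
  rw [← hD] at hM ⊢
  obtain ⟨a', ha'⟩ : ∃ a' : Fin n → ℕ, a' = fun i => a i.castSucc := ⟨_, rfl⟩
  have ha1 : Monotone a' := by
    rw [ha']
    exact fun i j hij => ha (Fin.castSucc_le_castSucc_iff.2 hij)
  have h21 : ∀ i, 2 ≤ a' i := by
    rw [ha']
    exact fun i => h2 _
  have hMi : ∀ i d, d + i = D → PwSet n a' d (layS M i) := by
    intro i d hi
    have h1 : PwSet (n + 1) a (d + i) M := by rwa [hi]
    rw [ha']
    exact h1.layS
  rw [← ha']
  intro m hm
  by_contra hcon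
  have hcon' : sn m N ∉ pwLex (n + 1) a D M.ncard := hcon
  have hmD : ∑ k, m k = e := (pwLex_pwSet n a' e _).1 m hm
  have hmo : m ∈ outside (le_refl n) a' e := by
    refine ⟨fun l => ?_, hmD⟩
    by_contra hl
    refine hcon' ((pwLex_pwSet (n + 1) a D _).2 _ ?_ ⟨l.castSucc, ?_⟩)
    · rw [lex_sum_sn, hmD, hD]
    · rw [sn_castSucc]
      rw [ha'] at hl
      exact not_lt.mp hl
  have hmo' : sn m N ∈ outside (le_refl (n + 1)) a D := by
    refine ⟨fun l => ?_, ?_⟩
    · change sn m N l < a l
      induction l using Fin.lastCases with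
      | last => rw [sn_last]; omega
      | cast l =>
        rw [sn_castSucc]
        have h3 := hmo.1 l
        rw [ha'] at h3
        exact h3
    · rw [lex_sum_sn, hmD, hD]
  -- the competing set
  obtain ⟨S, hS⟩ : ∃ S : Set (Fin (n + 1) →₀ ℕ), S = {x | ∃ (y : Fin n →₀ ℕ) (i : ℕ),
      x = sn y i ∧ ∑ k, y k + i = D ∧ (N + 1 ≤ i ∨
        (i ≤ N ∧ y ∈ pwLex n a' (D - i) (layS M i).ncard))} := ⟨_, rfl⟩
  have hSpw : PwSet (n + 1) a D S := by
    rw [hS, ha']
    exact y3_compete hN fun i => (layS M i).ncard
  have hSlay : ∀ i, i ≤ N → layS S i = pwLex n a' (D - i) (layS M i).ncard := by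
    intro i hi
    ext y
    constructor
    · intro hy
      have hy' : sn y i ∈ S := hy
      rw [hS] at hy'
      obtain ⟨y', i', h1, -, h3⟩ := hy'
      obtain ⟨rfl, rfl⟩ := sn_injective h1
      rcases h3 with h3 | h3
      · omega
      · exact h3.2
    · intro hy
      have h1 := (pwLex_pwSet n a' (D - i) _).1 y hy
      change sn y i ∈ S
      rw [hS]
      exact ⟨y, i, rfl, by omega, Or.inr ⟨hi, hy⟩⟩
  have hcard : S.ncard = M.ncard := by
    rw [hSpw.ncard_layS, hM.ncard_layS, hN]
    congr 1
    refine Finset.sum_congr rfl fun i hi => ?_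
    have hi' : i ≤ N := by
      have := Finset.mem_range.1 hi
      omega
    rw [hSlay i hi', ncard_pwLex (hMi i (D - i) (by omega))]
  have hmS : sn m N ∈ S := by
    rw [hS]
    refine ⟨m, N, rfl, by omega, Or.inr ⟨le_rfl, ?_⟩⟩
    have h3 : D - N = e := by omega
    rw [h3]
    exact hm
  -- the lexicographic set is contained in it, without `sn m N`
  have hsub : pwLex (n + 1) a D M.ncard ⊆ S \ {sn m N} := by
    intro x hx
    obtain ⟨y, i, rfl⟩ := exists_sn x
    have hdeg : ∑ k, y k + i = D := by
      rw [← lex_sum_sn]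
      exact (pwLex_pwSet (n + 1) a D _).1 _ hx
    have hne : sn y i ≠ sn m N := by
      intro H
      rw [H] at hx
      exact hcon' hx
    refine ⟨?_, hne⟩
    rw [hS]
    refine ⟨y, i, rfl, hdeg, ?_⟩
    by_cases hi : N + 1 ≤ i
    · exact Or.inl hi
    have hiN : i ≤ N := by omega
    refine Or.inr ⟨hiN, ?_⟩
    by_cases hin : ∃ l, a' l ≤ y l
    · exact (pwLex_pwSet n a' (D - i) _).2 y (by omega) hin
    push Not at hin
    have hyo : y ∈ outside (le_refl n) a' (D - i) := ⟨fun l => hin l, by omega⟩
    have hyo' : sn y i ∈ outside (le_refl (n + 1)) a D := by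
      refine ⟨fun l => ?_, by rw [lex_sum_sn, hdeg]⟩
      change sn y i l < a l
      induction l using Fin.lastCases with
      | last => rw [sn_last]; omega
      | cast l =>
        rw [sn_castSucc]
        have h3 := hin l
        rw [ha'] at h3
        exact h3
    rcases lexGT_total hne with h3 | h3
    · obtain ⟨k, hk, hk'⟩ := h3
      have hgt : lexGT y m := by
        induction k using Fin.lastCases with
        | last =>
          rw [sn_last, sn_last] at hk
          omega
        | cast k =>
          rw [sn_castSucc, sn_castSucc] at hk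
          refine ⟨k, hk, fun j hj => ?_⟩
          have h5 := hk' j.castSucc (Fin.castSucc_lt_castSucc_iff.2 hj)
          rw [sn_castSucc, sn_castSucc] at h5
          exact h5
      obtain ⟨q, hq⟩ : ∃ q : ℕ → ℕ, q = fun t => if i + t ≤ N then (layS M (i + t)).ncard -
          (insideP (le_refl n) a' (D - i - t)).ncard else 0 := ⟨_, rfl⟩
      have hqlex : ∀ t, i + t ≤ N → lexSet (le_refl n) a' (D - i - t) (q t) =
          pwLex n a' (D - i - t) (layS M (i + t)).ncard := by
        intro t ht
        rw [hq, pwLex]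
        simp only
        rw [if_pos ht]
      have hfill := lex_fill (le_refl n) a' (D - i) q ?_ y hyo (N - i) (by omega) m ?_ ?_ hgt
      · have h4 := hqlex 0 (by omega)
        rw [Nat.sub_zero, Nat.add_zero] at h4
        rw [h4] at hfill
        exact hfill
      · intro t ht x hx j
        by_cases htN : i + (t + 1) ≤ N
        · rw [hqlex (t + 1) htN] at hx
          rw [hqlex t (by omega)]
          have h6 := hMi (i + t) (D - i - (t + 1) + 1) (by omega)
          have h7 := hMi (i + (t + 1)) (D - i - (t + 1)) (by omega)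
          have h8 := pw_closure ha1 h21 h6 h7 (fun z hz l => hst (i + t) (by omega) z hz l) x hx j
          have h9 : D - i - (t + 1) + 1 = D - i - t := by omega
          rw [h9] at h8
          exact h8
        · have hq2 : q (t + 1) = 0 := by
            rw [hq]
            simp only
            rw [if_neg htN]
          rw [hq2] at hx
          rcases hx with hx | hx
          · obtain ⟨⟨l, hl⟩, hx2⟩ := hx
            refine Or.inl ⟨⟨l, ?_⟩, ?_⟩
            · rw [Finsupp.add_apply]
              omega
            · rw [sum_add_single, hx2]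
              omega
          · exact absurd hx.2 (Nat.not_lt_zero _)
      · rw [hqlex (N - i) (by omega)]
        have h4 : i + (N - i) = N := by omega
        have h5 : D - i - (N - i) = e := by omega
        rw [h4, h5]
        exact hm
      · have h5 : D - i - (N - i) = e := by omega
        rw [h5]
        exact hmo
    · exact absurd (lexSet_up _ _ hmo' h3 hx hyo') hcon'
  have h5 := Set.ncard_le_ncard hsub (hSpw.finite.subset Set.sdiff_subset)
  have h6 := Set.ncard_sdiff_singleton_lt_of_mem hmS hSpw.finite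
  rw [ncard_pwLex hM] at h5
  omega

end Vale.Agent.P200.Y
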