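import Vale.Agent.P200.W.Binom
import Vale.Agent.P200.M.Quad

/-!
Lex-plus-powers for monomial ideals containing powers of the variables (all exponents), by the
method of `M/SqLex`, `M/SqStab`, `M/SqZle` (there all exponents are 2).  The last variable has the
largest exponent `N = a (Fin.last n)`.  Definitions.
-/

namespace Vale.Agent.P200.Y

open MvPolynomial Module
open Vale.Agent.P200.B Vale.Agent.P200.G Vale.Agent.P200.L Vale.Agent.P200.M Vale.Agent.P200.V
open Vale.Agent.P200.W

universe u

/-- sets of exponents of degree `D` containing all multiples of the powers -/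
def PwSet (n : ℕ) (a : Fin n → ℕ) (D : ℕ) (M : Set (Fin n →₀ ℕ)) : Prop :=
  (∀ m ∈ M, ∑ i, m i = D) ∧ ∀ m : Fin n →₀ ℕ, ∑ i, m i = D → (∃ i, a i ≤ m i) → m ∈ M

/-- the lex set containing the powers with `v` elements -/
def pwLex (n : ℕ) (a : Fin n → ℕ) (D v : ℕ) : Set (Fin n →₀ ℕ) :=
  lexSet (le_refl n) a D (v - (insideP (le_refl n) a D).ncard)

/-- the layers `i < N` (with respect to the last variable) are stable -/
def Stab {n : ℕ} (N : ℕ) (M : Set (Fin (n + 1) →₀ ℕ)) : Prop :=
  ∀ i, i + 1 < N → ∀ m ∈ layS M (i + 1), ∀ j, m + Finsupp.single j 1 ∈ layS M i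

/-- a pair `x`, `y` in a division ring with `(z x + t y)^N = z^N x^N + t^N y^N` for central variables
`z`, `t`, and such that the coefficients of `z^i t` in `(z x + t y)^(i+1)`, `i + 1 < N`, are nonzero -/
def HasPair (K : Type u) [Field K] (N : ℕ) : Prop :=
  ∃ (D : Type u) (_ : DivisionRing D) (_ : Algebra K D) (x y : D),
    x ≠ 0 ∧ (∀ m, 0 < m → m < N → wsum x y N m = 0) ∧ ∀ i, i + 1 < N → wsum x y (i + 1) 1 ≠ 0

end Vale.Agent.P200.Y
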