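import Vale.Agent.P200.Y.Lex

/-! Powers of `z' = x z + y x_j`; lowest monomials with bounded last exponent.

`smat j x y` (of `M/SqStab`) is the substitution `z' = x z + y x_j`, `z` the last variable. -/

namespace Vale.Agent.P200.Y

open MvPolynomial Module
open Vale.Agent.P200.B Vale.Agent.P200.G Vale.Agent.P200.L Vale.Agent.P200.M Vale.Agent.P200.V
open Vale.Agent.P200.W

variable {n : ℕ}

/-- powers of `z'`: `wsum_eval` with `φ` the embedding of the constants -/
theorem lin_smat_pow {D : Type*} [DivisionRing D] (j : Fin n) (x y : D) (k : ℕ) :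
    (M.lin (smat j x y (Fin.last n)) ^ k : YR D (n + 1)) =
      ∑ m ∈ Finset.range (k + 1), AddMonoidAlgebra.single
        ((k - m) • Finsupp.single (Fin.last n) 1 + m • Finsupp.single j.castSucc 1)
        (wsum x y k m) := by
  classical
  let φ : D →+* YR D (n + 1) := AddMonoidAlgebra.singleZeroRingHom
  have hφ : ∀ (m : Fin (n + 1) →₀ ℕ) (a : D),
      (AddMonoidAlgebra.single m 1 : YR D (n + 1)) * φ a = AddMonoidAlgebra.single m a := by
    intro m a
    change AddMonoidAlgebra.single _ _ * AddMonoidAlgebra.single _ _ = _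
    rw [AddMonoidAlgebra.single_mul_single, add_zero, one_mul]
  have hφ' : ∀ (m : Fin (n + 1) →₀ ℕ) (a : D),
      φ a * (AddMonoidAlgebra.single m 1 : YR D (n + 1)) = AddMonoidAlgebra.single m a := by
    intro m a
    change AddMonoidAlgebra.single _ _ * AddMonoidAlgebra.single _ _ = _
    rw [AddMonoidAlgebra.single_mul_single, zero_add, mul_one]
  rw [smat_last, lin_add, lin_single, lin_single, ← hφ _ x, ← hφ _ y,
    wsum_eval φ _ _ (fun a => by rw [hφ, hφ']) (fun a => by rw [hφ, hφ']) (by
      rw [AddMonoidAlgebra.single_mul_single, AddMonoidAlgebra.single_mul_single,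
        add_comm (Finsupp.single (Fin.last n) 1)])]
  refine Finset.sum_congr rfl fun m _ => ?_
  rw [AddMonoidAlgebra.single_pow, AddMonoidAlgebra.single_pow,
    AddMonoidAlgebra.single_mul_single, one_pow, one_pow, one_mul, hφ]

/-- `xim` of a monomial with last exponent `k`: `m z'^k` -/
theorem xim_smat_sn {D : Type*} [DivisionRing D] (j : Fin n) (x y : D) (m : Fin n →₀ ℕ) (k : ℕ) :
    xim (smat j x y) (sn m k) =
      ∑ t ∈ Finset.range (k + 1), AddMonoidAlgebra.single (sn (m + t • Finsupp.single j 1) (k - t))
        (wsum x y k t) := by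
  have h0 : ∀ k, xim (smat j x y) (sn m k) =
      AddMonoidAlgebra.single (sn m 0) 1 * M.lin (smat j x y (Fin.last n)) ^ k := by
    intro k
    induction k with
    | zero => rw [pow_zero, mul_one, xim_smat j x y _ _ (sn_last m 0) rfl]
    | succ k ih =>
      have h1 : sn m (k + 1) = sn m k + Finsupp.single (Fin.last n) 1 := by
        ext i
        rw [Finsupp.add_apply]
        refine Fin.lastCases ?_ (fun i => ?_) i
        · rw [sn_last, sn_last, Finsupp.single_eq_same]
        · rw [sn_castSucc, sn_castSucc, Finsupp.single_eq_of_ne (Fin.castSucc_lt_last i).ne,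
            add_zero]
      rw [h1, xim_add _ (smat_row j x y), ih, mul_assoc, ← pow_succ]
  rw [h0, lin_smat_pow, Finset.mul_sum]
  refine Finset.sum_congr rfl fun t ht => ?_
  rw [AddMonoidAlgebra.single_mul_single, one_mul]
  congr 1
  ext i
  rw [Finsupp.add_apply, Finsupp.add_apply, Finsupp.smul_apply, Finsupp.smul_apply]
  refine Fin.lastCases ?_ (fun i => ?_) i
  · rw [sn_last, sn_last, Finsupp.single_eq_same,
      Finsupp.single_eq_of_ne (Fin.castSucc_lt_last j).ne', smul_zero, add_zero, zero_add,
      smul_eq_mul, mul_one]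
  · rw [sn_castSucc, sn_castSucc, Finsupp.add_apply, Finsupp.smul_apply,
      Finsupp.single_eq_of_ne (Fin.castSucc_lt_last i).ne, smul_zero, zero_add]
    congr 2
    by_cases hi : i = j
    · rw [hi, Finsupp.single_eq_same, Finsupp.single_eq_same]
    · rw [Finsupp.single_eq_of_ne hi, Finsupp.single_eq_of_ne fun h =>
        hi (Fin.castSucc_injective n h)]

/-- the part of the lowest monomials with last exponent at most `i` (generalises `ncard_inm_zero`).
Let `π` be the truncation to last exponents `≤ i` (a linear map); the set on the right is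
`inm B (V.map π)` (lower weight implies smaller or equal last exponent as `e < B`), of cardinality
`finrank (V.map π)` by `ncard_inm`, and `U ≤ V.map π`. -/
theorem ncard_inm_le {D : Type*} [DivisionRing D] {B e : ℕ} (hB : e < B)
    {V : Submodule D (YR D (n + 1))} (hV : V ≤ YD D (n + 1) e) (i : ℕ)
    (U : Submodule D (YR D (n + 1)))
    (hU : ∀ u ∈ U, (∀ m, i < m (Fin.last n) → u.coeff m = 0) ∧
      ∃ v ∈ V, ∀ m, m (Fin.last n) ≤ i → v.coeff m = u.coeff m) :
    finrank D U ≤ {m | m ∈ inm B V ∧ m (Fin.last n) ≤ i}.ncard := by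
  classical
  let π : YR D (n + 1) →ₗ[D] YR D (n + 1) :=
    { toFun := fun u => AddMonoidAlgebra.ofCoeff (u.coeff.filter fun m => m (Fin.last n) ≤ i)
      map_add' := fun u v => by
        apply AddMonoidAlgebra.coeff_injective
        exact Finsupp.filter_add
      map_smul' := fun k u => by
        apply AddMonoidAlgebra.coeff_injective
        exact Finsupp.filter_smul }
  have hπ : ∀ (u : YR D (n + 1)) (m : Fin (n + 1) →₀ ℕ),
      (π u).coeff m = if m (Fin.last n) ≤ i then u.coeff m else 0 := by
    intro u m
    exact Finsupp.filter_apply _ _ _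
  have hV' : V.map π ≤ YD D (n + 1) e := by
    rintro _ ⟨u, hu, rfl⟩ m hm
    rw [hπ] at hm
    by_cases h : m (Fin.last n) ≤ i
    · rw [if_pos h] at hm
      exact hV hu m hm
    · rw [if_neg h] at hm
      exact absurd rfl hm
  have hS : {m | m ∈ inm B V ∧ m (Fin.last n) ≤ i} = inm B (V.map π) := by
    ext m
    constructor
    · rintro ⟨⟨u, hu, hu1, hu2⟩, hm⟩
      refine ⟨π u, ⟨u, hu, rfl⟩, ?_, fun m' hm' => ?_⟩
      · rw [hπ, if_pos hm]
        exact hu1
      · rw [hπ, hu2 m' hm', ite_self]
    · rintro ⟨_, ⟨u, hu, rfl⟩, hu1, hu2⟩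
      rw [hπ] at hu1
      by_cases hm : m (Fin.last n) ≤ i
      · rw [if_pos hm] at hu1
        refine ⟨⟨u, hu, hu1, fun m' hm' => ?_⟩, hm⟩
        obtain ⟨n1, hn1⟩ := deg_exists_sn m
        obtain ⟨n2, hn2⟩ := deg_exists_sn m'
        have hd : ∑ k, m k = e := hV hu _ hu1
        have hlt : wt B n1 < B ^ n := by
          refine deg_digits_lt _ fun k => ?_
          have h5 : n1 k = m k.castSucc := by
            conv_rhs => rw [hn1]
            rw [sn_castSucc]
          have h6 := deg_le_sum m k.castSucc
          omega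
        have hle : m' (Fin.last n) ≤ m (Fin.last n) := by
          have h7 : wt B m' = wt B n2 + m' (Fin.last n) * B ^ n := by
            conv_lhs => rw [hn2]
            rw [deg_wt_sn]
          have h8 : wt B m = wt B n1 + m (Fin.last n) * B ^ n := by
            conv_lhs => rw [hn1]
            rw [deg_wt_sn]
          by_contra hc
          have h9 : (m (Fin.last n) + 1) * B ^ n ≤ m' (Fin.last n) * B ^ n :=
            Nat.mul_le_mul_right _ (by omega)
          rw [add_mul, one_mul] at h9
          omega
        have h10 := hu2 m' hm'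
        rwa [hπ, if_pos (hle.trans hm)] at h10
      · rw [if_neg hm] at hu1
        exact absurd rfl hu1
  have h0 : Module.Finite D (YD D (n + 1) e) := by
    have := finite_monD (D := D) {m : Fin (n + 1) →₀ ℕ | ∑ i, m i = e} (fun m hm => hm)
    exact this
  have h1 : Module.Finite D (V.map π) := Submodule.finiteDimensional_of_le hV'
  rw [hS, ncard_inm hB hV']
  refine Submodule.finrank_mono ?_
  intro u hu
  obtain ⟨h2, v, hv, h3⟩ := hU u hu
  refine ⟨v, hv, ?_⟩
  apply deg_yr_ext
  intro m
  rw [hπ]
  by_cases h : m (Fin.last n) ≤ i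
  · rw [if_pos h, h3 m h]
  · rw [if_neg h, h2 m (by omega)]

end Vale.Agent.P200.Y
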