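import Vale.Agent.P200.Y.Defs
import Vale.Agent.P200.Q.Final

/-!
Combinatorics of lex sets containing the powers of all variables.  Everything is the generalisation of
`M/SqLex.lean` (exponents 2) to `a` ; `lexSet_up`, `lexGT_total`, `lex_fill`, `lexSet_closure` are
already there for all `a`.
-/

namespace Vale.Agent.P200.Y

open MvPolynomial Module
open Vale.Agent.P200.B Vale.Agent.P200.G Vale.Agent.P200.L Vale.Agent.P200.M Vale.Agent.P200.V
open Vale.Agent.P200.W

variable {n : ℕ}

theorem PwSet.finite {a : Fin n → ℕ} {D : ℕ} {M : Set (Fin n →₀ ℕ)} (hM : PwSet n a D M) :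
    M.Finite :=
  (finite_degree_eq D).subset fun m hm => hM.1 m hm

theorem PwSet.inside {a : Fin n → ℕ} {D : ℕ} {M : Set (Fin n →₀ ℕ)} (hM : PwSet n a D M) :
    insideP (le_refl n) a D ⊆ M := fun m hm => hM.2 m hm.2 hm.1

theorem pwLex_pwSet (n : ℕ) (a : Fin n → ℕ) (D v : ℕ) : PwSet n a D (pwLex n a D v) :=
  ⟨fun _ hm => mem_lexSet_degree _ _ hm, fun _ hD h2 => Or.inl ⟨h2, hD⟩⟩

theorem ncard_pwLex {a : Fin n → ℕ} {D : ℕ} {M : Set (Fin n →₀ ℕ)} (hM : PwSet n a D M) :
    (pwLex n a D M.ncard).ncard = M.ncard := by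
  have hin : (insideP (le_refl n) a D).Finite :=
    (finite_degree_eq D).subset fun _ hm => hm.2
  have hout : (outside (le_refl n) a D).Finite :=
    (finite_degree_eq D).subset fun _ hm => hm.2
  have h1 := Set.ncard_le_ncard hM.inside hM.finite
  have h2 : M ⊆ insideP (le_refl n) a D ∪
      outside (le_refl n) a D := by
    intro m hm
    by_cases h : ∃ i, a i ≤ m i
    · exact Or.inl ⟨h, hM.1 m hm⟩
    · push Not at h
      exact Or.inr ⟨h, hM.1 m hm⟩
  have h3 := Set.ncard_le_ncard h2 (hin.union hout)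
  have h4 := Set.ncard_union_le (insideP (le_refl n) a D)
    (outside (le_refl n) a D)
  rw [pwLex, ncard_lexSet]
  omega

theorem PwSet.layS {a : Fin (n + 1) → ℕ} {D i : ℕ} {M : Set (Fin (n + 1) →₀ ℕ)}
    (hM : PwSet (n + 1) a (D + i) M) : PwSet n (fun i => a i.castSucc) D (layS M i) := by
  refine ⟨fun m hm => ?_, fun m hD h2 => ?_⟩
  · have h1 := hM.1 _ hm
    rw [lex_sum_sn] at h1
    omega
  · refine hM.2 _ ?_ ?_
    · rw [lex_sum_sn, hD]
    · obtain ⟨k, hk⟩ := h2
      refine ⟨k.castSucc, ?_⟩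
      rwa [sn_castSucc]

/-- all higher layers are full -/
theorem PwSet.layS_full {a : Fin (n + 1) → ℕ} {D i : ℕ} {M : Set (Fin (n + 1) →₀ ℕ)}
    (hM : PwSet (n + 1) a D M) (hi : a (Fin.last n) ≤ i) :
    Vale.Agent.P200.M.layS M i = {m | ∑ k, m k + i = D} := by
  ext m
  constructor
  · intro hm
    have h1 := hM.1 _ hm
    rwa [lex_sum_sn] at h1
  · intro hm
    refine hM.2 _ ?_ ⟨Fin.last n, ?_⟩
    · rw [lex_sum_sn]
      exact hm
    · rwa [sn_last]

theorem y1_ncard_ge {M : Set (Fin (n + 1) →₀ ℕ)} (hM : M.Finite) (N : ℕ) :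
    M.ncard = ∑ i ∈ Finset.range N, (Vale.Agent.P200.M.layS M i).ncard +
      {m : Fin (n + 1) →₀ ℕ | m ∈ M ∧ N ≤ m (Fin.last n)}.ncard := by
  induction N with
  | zero =>
    rw [Finset.sum_range_zero, zero_add]
    congr 1
    ext m
    exact ⟨fun hm => ⟨hm, Nat.zero_le _⟩, fun hm => hm.1⟩
  | succ N ih =>
    have hinj : Function.Injective fun m : Fin n →₀ ℕ => sn m N :=
      fun m m' h => (sn_injective h).1
    have h0 : {m : Fin (n + 1) →₀ ℕ | m ∈ M ∧ N ≤ m (Fin.last n)} =
        (fun m : Fin n →₀ ℕ => sn m N) '' Vale.Agent.P200.M.layS M N ∪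
          {m : Fin (n + 1) →₀ ℕ | m ∈ M ∧ N + 1 ≤ m (Fin.last n)} := by
      ext x
      constructor
      · rintro ⟨hx, hN⟩
        obtain ⟨m, i, rfl⟩ := exists_sn x
        rw [sn_last] at hN
        rcases Nat.eq_or_lt_of_le hN with rfl | hN
        · exact Or.inl ⟨m, hx, rfl⟩
        · exact Or.inr ⟨hx, by rw [sn_last]; exact hN⟩
      · rintro (⟨m, hm, rfl⟩ | ⟨h1, h2⟩)
        · exact ⟨hm, by rw [sn_last]⟩
        · exact ⟨h1, by omega⟩
    have hf1 : ((fun m : Fin n →₀ ℕ => sn m N) '' Vale.Agent.P200.M.layS M N).Finite := by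
      refine hM.subset ?_
      rintro _ ⟨m, hm, rfl⟩
      exact hm
    have hf2 : {m : Fin (n + 1) →₀ ℕ | m ∈ M ∧ N + 1 ≤ m (Fin.last n)}.Finite :=
      hM.subset fun m hm => hm.1
    rw [ih, h0, Set.ncard_union_eq _ hf1 hf2, Set.ncard_image_of_injective _ hinj,
      Finset.sum_range_succ, add_assoc]
    rw [Set.disjoint_left]
    rintro _ ⟨m, -, rfl⟩ ⟨-, h⟩
    rw [sn_last] at h
    omega

/-- counting by layers: `M` is the disjoint union of the images of the layers `i < a (last)` under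
`m ↦ sn m i` and of the part with last exponent at least `a (last)` (which is full). -/
theorem PwSet.ncard_layS {a : Fin (n + 1) → ℕ} {D : ℕ} {M : Set (Fin (n + 1) →₀ ℕ)}
    (hM : PwSet (n + 1) a D M) :
    M.ncard = ∑ i ∈ Finset.range (a (Fin.last n)), (Vale.Agent.P200.M.layS M i).ncard +
      {m : Fin (n + 1) →₀ ℕ | ∑ k, m k = D ∧ a (Fin.last n) ≤ m (Fin.last n)}.ncard := by
  rw [y1_ncard_ge hM.finite (a (Fin.last n))]
  congr 2
  ext m
  exact ⟨fun hm => ⟨hM.1 m hm.1, hm.2⟩, fun hm => ⟨hM.2 m hm.1 ⟨_, hm.2⟩, hm.2⟩⟩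

/-- Clements-Lindström for two stable layers (as `sq_closure`: use `lexSet_closure` over `ℚ` with
`f i = X i ^ a i` and the forms `egh_case` with `T = ∅`) -/
theorem pw_closure {a : Fin n → ℕ} (ha : Monotone a) (h2 : ∀ i, 2 ≤ a i) {D : ℕ}
    {M0 M1 : Set (Fin n →₀ ℕ)} (h0 : PwSet n a (D + 1) M0)
    (h1 : PwSet n a D M1) (hst : ∀ m ∈ M1, ∀ j, m + Finsupp.single j 1 ∈ M0)
    (m : Fin n →₀ ℕ) (hm : m ∈ pwLex n a D M1.ncard) (j : Fin n) :
    m + Finsupp.single j 1 ∈ pwLex n a (D + 1) M0.ncard := by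
  classical
  have hpos : ∀ i, 1 ≤ a i := fun i => (Nat.le_succ 1).trans (h2 i)
  set f : Fin n → MvPolynomial (Fin n) ℚ := fun i => X i ^ a i with hf
  have hfh : ∀ i, (f i).IsHomogeneous (a i) := fun i => by
    have h2 := (isHomogeneous_X ℚ i).pow (a i)
    rwa [one_mul] at h2
  have hmp : IsMPrimary (Ideal.span (Set.range f)) := by
    rw [isMPrimary_iff_radical]
    intro i
    exact ⟨a i, Ideal.subset_span ⟨i, rfl⟩⟩
  have hreg : IsRegularSeq f := isRegSeq_of_isMPrimary a hpos f hfh hmp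
  have hE : EGHfor (le_refl n) a f :=
    egh_case _ a ha h2 f hfh hreg
      (Or.inr ⟨∅, fun i hi => absurd hi (Finset.notMem_empty i), fun i _ =>
        ⟨fun _ => X i, fun _ => isHomogeneous_X _ i, by
          rw [hf, Finset.prod_const, Finset.card_univ, Fintype.card_fin, map_pow, map_X]⟩⟩)
  have hP : powerIdeal ℚ (le_refl n) a = Ideal.span (Set.range f) := rfl
  have hpiece : ∀ D, piece (Ideal.span (Set.range f)) D =
      restrictSupport ℚ (insideP (le_refl n) a D) := by
    intro D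
    rw [← hP]
    exact degPart_powerIdeal _ _ D
  have hle : ∀ {D : ℕ} {M : Set (Fin n →₀ ℕ)}, PwSet n a D M →
      restrictSupport ℚ M ≤ homogeneousSubmodule (Fin n) ℚ D := by
    intro D M hM
    rw [homogeneousSubmodule_eq_restrict]
    exact restrictSupport_mono _ fun m hm => hM.1 m hm
  have key := lexSet_closure (le_refl n) a hpos f hfh hreg hE D
    (restrictSupport ℚ M1) (restrictSupport ℚ M0)
    (by rw [hpiece]; exact restrictSupport_mono _ h1.inside) (hle h1)
    (by rw [hpiece]; exact restrictSupport_mono _ h0.inside) (hle h0)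
    (by
      intro j b hb
      rw [mem_restrictSupport_iff] at hb ⊢
      intro x hx
      rw [mul_comm, support_mul_X] at hx
      obtain ⟨y, hy, rfl⟩ := Finset.mem_map.1 hx
      exact hst y (hb hy) j) m
  rw [finrank_restrictSupport _ h1.finite, finrank_restrictSupport _ h0.finite] at key
  exact key hm j

/-- the lex set is stable with respect to the last variable (as `sqLex_stable`) -/
theorem pwLex_stab {a : Fin (n + 1) → ℕ} {D v : ℕ} :
    Stab (a (Fin.last n)) (pwLex (n + 1) a D v) := by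
  intro i hi m hm j
  have h1 : sn m (i + 1) ∈ pwLex (n + 1) a D v := hm
  have hdeg : ∑ k, sn (m + Finsupp.single j 1) i k = D := by
    have h2 := mem_lexSet_degree _ _ h1
    rw [lex_sum_sn] at h2 ⊢
    rw [sum_add_single]
    omega
  by_cases hin : ∃ l, a l ≤ sn (m + Finsupp.single j 1) i l
  · exact Or.inl ⟨hin, hdeg⟩
  · push Not at hin
    have ho : sn m (i + 1) ∈ outside (le_refl (n + 1)) a D := by
      refine ⟨fun l => ?_, mem_lexSet_degree _ _ h1⟩
      change sn m (i + 1) l < a l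
      induction l using Fin.lastCases with
      | last => rw [sn_last]; exact hi
      | cast l =>
        have h3 := hin l.castSucc
        rw [sn_castSucc, Finsupp.add_apply] at h3
        rw [sn_castSucc]
        omega
    refine lexSet_up (le_refl (n + 1)) _ ⟨fun l => hin l, hdeg⟩ ⟨j.castSucc, ?_, fun k hk => ?_⟩
      h1 ho
    · rw [sn_castSucc, sn_castSucc, add_single_same]
      omega
    · induction k using Fin.lastCases with
      | last => exact absurd hk (not_lt.mpr (Fin.le_last _))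
      | cast k =>
        rw [Fin.castSucc_lt_castSucc_iff] at hk
        rw [sn_castSucc, sn_castSucc, add_single_ne m hk.ne]

end Vale.Agent.P200.Y
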