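import Vale.Agent.P200.Y.Final
import Vale.Agent.P200.X.Mult
import Vale.Agent.P200.W.Degen

/-!
Lex-plus-powers for the degrees `(a_0, b, ..., b)`, `b` prime: in the coordinates of the division
ring points the initial spaces contain the multiples of `z_0 ^ a_0`.
-/

namespace Vale.Agent.P200.Y

open MvPolynomial Module
open Vale.Agent.P200.B Vale.Agent.P200.G Vale.Agent.P200.L Vale.Agent.P200.M Vale.Agent.P200.V
open Vale.Agent.P200.W

universe u

section theta
variable {D : Type*} [DivisionRing D] {n : ℕ}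

theorem mx_xim_add (E : Fin n → Fin n → D)
    (hrow : ∀ i j, i ≠ j → ∀ k l, E i k * E j l = E j l * E i k) (t : Fin n →₀ ℕ) :
    ∀ (N : ℕ) (s : Fin n →₀ ℕ), ∑ i, s i = N → xim E (t + s) = xim E t * xim E s := by
  intro N
  induction N with
  | zero =>
    intro s hs
    have h0 : s = 0 := by
      ext i
      exact (Finset.sum_eq_zero_iff.1 hs) i (Finset.mem_univ i)
    rw [h0, add_zero, m4_xim_zero, mul_one]
  | succ N ih =>
    intro s hs
    obtain ⟨i, hi⟩ : ∃ i, s i ≠ 0 := by
      by_contra hcon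
      push Not at hcon
      rw [Finset.sum_eq_zero fun i _ => hcon i] at hs
      exact absurd hs (Nat.succ_ne_zero N).symm
    have h1 : s = (s - Finsupp.single i 1) + Finsupp.single i 1 := by
      rw [tsub_add_cancel_of_le]
      rw [Finsupp.single_le_iff]
      omega
    set s' := s - Finsupp.single i 1 with hs'
    have h2 : ∑ k, s' k = N := by
      have h3 := m4_deg_add s' (Finsupp.single i 1)
      rw [← h1, hs, m4_deg_single] at h3
      omega
    rw [h1, ← add_assoc, xim_add E hrow, xim_add E hrow, ih s' h2, mul_assoc]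

theorem mx_theta_mul (E : Fin n → Fin n → D)
    (hrow : ∀ i j, i ≠ j → ∀ k l, E i k * E j l = E j l * E i k) (u : YR D n)
    (s : Fin n →₀ ℕ) :
    theta E (u * AddMonoidAlgebra.single s 1) = theta E u * xim E s := by
  induction u using AddMonoidAlgebra.induction_linear with
  | zero => rw [zero_mul, map_zero, zero_mul]
  | add a b ha hb => rw [add_mul, map_add, map_add, add_mul, ha, hb]
  | single m c =>
    rw [AddMonoidAlgebra.single_mul_single, mul_one, theta_single, theta_single,
      mx_xim_add E hrow m _ s rfl, smul_mul_assoc]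

theorem mx_surj (E : Fin n → Fin n → D)
    (hrow : ∀ i j, i ≠ j → ∀ k l, E i k * E j l = E j l * E i k)
    (hind : LinearIndependent D E) (w : YR D n) : ∃ w', theta E w' = w := by
  have h1 : w ∈ LinearMap.range (theta E) := by
    rw [m4_sum_single w]
    refine Submodule.sum_mem _ fun m _ => ?_
    obtain ⟨y, _, hy⟩ := m4_single_range E hrow hind _ m (w.coeff m) rfl
    exact ⟨y, hy⟩
  exact h1

/-- the left ideal generated by the forms `ξ_i`, `i ≥ 1` -/
noncomputable def mxL (E : Fin (n + 1) → Fin (n + 1) → D) : Ideal (YR D (n + 1)) :=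
  Ideal.span (Set.range fun i : Fin n => (M.lin (E i.succ) : YR D (n + 1)))

theorem mx_smul_mem (E : Fin (n + 1) → Fin (n + 1) → D) (c : D) {u : YR D (n + 1)}
    (hu : u ∈ mxL E) : c • u ∈ mxL E := by
  rw [w16_smul_eq]
  exact Ideal.mul_mem_left _ _ hu

/-- forms without the power of the first variable -/
theorem mx_mem (E : Fin (n + 1) → Fin (n + 1) → D)
    (hrow : ∀ i j, i ≠ j → ∀ k l, E i k * E j l = E j l * E i k) {N : ℕ} {u : YR D (n + 1)}
    (hu : u ∈ YD D (n + 1) N) (h0 : u.coeff (Finsupp.single 0 N) = 0) :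
    theta E u ∈ mxL E := by
  rw [m4_sum_single u, map_sum]
  refine Ideal.sum_mem _ fun s hs => ?_
  have hs0 : u.coeff s ≠ 0 := Finsupp.mem_support_iff.1 hs
  have hsN : ∑ i, s i = N := hu s hs0
  obtain ⟨i, hi⟩ : ∃ i : Fin n, s i.succ ≠ 0 := by
    by_contra hcon
    push Not at hcon
    apply hs0
    have h1 : s = Finsupp.single 0 N := by
      rw [Fin.sum_univ_succ, Finset.sum_eq_zero fun i _ => hcon i, add_zero] at hsN
      ext k
      refine Fin.cases ?_ (fun k => ?_) k
      · rw [hsN, Finsupp.single_eq_same]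
      · rw [hcon k, Finsupp.single_eq_of_ne (Fin.succ_ne_zero k)]
    rw [h1]
    exact h0
  have h1 : s = (s - Finsupp.single i.succ 1) + Finsupp.single i.succ 1 := by
    rw [tsub_add_cancel_of_le]
    rw [Finsupp.single_le_iff]
    omega
  rw [theta_single]
  apply mx_smul_mem
  rw [h1, xim_add E hrow]
  exact Ideal.mul_mem_left _ _ (Ideal.subset_span ⟨i, rfl⟩)

/-- the powers of the first variable do not belong to the left ideal -/
theorem mx_coeff (E : Fin (n + 1) → Fin (n + 1) → D)
    (hrow : ∀ i j, i ≠ j → ∀ k l, E i k * E j l = E j l * E i k)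
    (hind : LinearIndependent D E) {u : YR D (n + 1)} (hu : theta E u ∈ mxL E) (N : ℕ) :
    u.coeff (Finsupp.single 0 N) = 0 := by
  obtain ⟨w, hw⟩ := (Submodule.mem_span_range_iff_exists_fun _).1 hu
  choose w' hw' using fun i => mx_surj E hrow hind (w i)
  have h1 : theta E (∑ i : Fin n, w' i * zv D (n + 1) i.succ) = theta E u := by
    rw [map_sum, ← hw]
    refine Finset.sum_congr rfl fun i _ => ?_
    rw [theta_mul_zv E hrow, hw', smul_eq_mul]
  rw [← theta_injective E hrow hind h1, AddMonoidAlgebra.coeff_sum, Finsupp.finsetSum_apply]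
  refine Finset.sum_eq_zero fun i _ => ?_
  rw [w17_coeff_mul_zv, if_pos (Finsupp.single_eq_of_ne (Fin.succ_ne_zero i))]

end theta

/-- a form whose power coefficient does not vanish -/
theorem mx_first {K : Type u} [Field K] {n b : ℕ} (hb : 1 ≤ b)
    {L : Type*} [Field L] {D : Type*} [DivisionRing D] [Algebra K D] [Algebra L D]
    (E : Fin (n + 1) → Fin (n + 1) → D)
    (hrow : ∀ i j, i ≠ j → ∀ k l, E i k * E j l = E j l * E i k) (hind : LinearIndependent D E)
    (f h : Fin (n + 1) → MvPolynomial (Fin (n + 1)) K)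
    (c : Matrix (Fin (n + 1)) (Fin (n + 1)) L)
    (hc : (c.submatrix Fin.succ Fin.succ).det ≠ 0)
    (hE : ∀ i, (M.lin (E i) ^ b : YR D (n + 1)) =
      ∑ j, algebraMap L D (c i j) • bD D (f j * h j))
    (hm : IsMPrimary (Ideal.span (Set.range fun i => f i * h i))) {a : ℕ} {φ : YR D (n + 1)}
    (hφ : φ ∈ YD D (n + 1) a) (hθ : theta E φ = bD D (f 0)) :
    φ.coeff (Finsupp.single 0 a) ≠ 0 := by
  intro h0
  have hf0 : bD D (f 0) ∈ mxL E := by
    rw [← hθ]
    exact mx_mem E hrow hφ h0
  have hmul : ∀ (g g' : MvPolynomial (Fin (n + 1)) K), bD D g ∈ mxL E → bD D (g * g') ∈ mxL E := by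
    intro g g' hg
    rw [mul_comm, map_mul]
    exact Ideal.mul_mem_left _ _ hg
  have hrow1 : ∀ i : Fin n, ∑ j : Fin n, algebraMap L D (c i.succ j.succ) •
      bD D (f j.succ * h j.succ) ∈ mxL E := by
    intro i
    have h1 : (M.lin (E i.succ) ^ b : YR D (n + 1)) ∈ mxL E := by
      obtain ⟨b', rfl⟩ : ∃ b', b = b' + 1 := ⟨b - 1, by omega⟩
      rw [pow_succ]
      exact Ideal.mul_mem_left _ _ (Ideal.subset_span ⟨i, rfl⟩)
    rw [hE, Fin.sum_univ_succ] at h1
    exact (Submodule.add_mem_iff_right _ (mx_smul_mem E _ (hmul _ _ hf0))).1 h1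
  have hall : ∀ j, bD D (f j * h j) ∈ mxL E := by
    intro j
    refine Fin.cases (hmul _ _ hf0) (fun j => ?_) j
    set A := c.submatrix Fin.succ Fin.succ with hA
    have hAu : IsUnit A.det := isUnit_iff_ne_zero.2 hc
    have h1 : bD D (f j.succ * h j.succ) = ∑ i : Fin n, algebraMap L D (A⁻¹ j i) •
        ∑ k : Fin n, algebraMap L D (c i.succ k.succ) •
          (bD D (f k.succ * h k.succ) : YR D (n + 1)) := by
      have h2 : ∀ i : Fin n, algebraMap L D (A⁻¹ j i) •
          ∑ k : Fin n, algebraMap L D (c i.succ k.succ) •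
            (bD D (f k.succ * h k.succ) : YR D (n + 1)) =
          ∑ k : Fin n, algebraMap L D (A⁻¹ j i * A i k) •
            (bD D (f k.succ * h k.succ) : YR D (n + 1)) := by
        intro i
        rw [Finset.smul_sum]
        refine Finset.sum_congr rfl fun k _ => ?_
        rw [smul_smul, ← map_mul]
        rfl
      rw [Finset.sum_congr rfl fun i _ => h2 i, Finset.sum_comm]
      have h3 : ∀ k : Fin n, ∑ i : Fin n, algebraMap L D (A⁻¹ j i * A i k) •
          (bD D (f k.succ * h k.succ) : YR D (n + 1)) =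
          algebraMap L D ((1 : Matrix (Fin n) (Fin n) L) j k) •
            (bD D (f k.succ * h k.succ) : YR D (n + 1)) := by
        intro k
        rw [← Finset.sum_smul, ← map_sum, ← Matrix.nonsing_inv_mul A hAu, Matrix.mul_apply]
      rw [Finset.sum_congr rfl fun k _ => h3 k, Finset.sum_eq_single j]
      · rw [Matrix.one_apply_eq, map_one, one_smul]
      · intro k _ hk
        rw [Matrix.one_apply_ne hk.symm, map_zero, zero_smul]
      · intro hj
        exact absurd (Finset.mem_univ j) hj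
    rw [h1]
    exact Ideal.sum_mem _ fun i _ => mx_smul_mem E _ (hrow1 i)
  obtain ⟨N, hN⟩ := hm
  have hmon : ∀ u ∈ YD D (n + 1) N, u ∈ mxL E := by
    intro u hu
    rw [m4_sum_single u]
    refine Ideal.sum_mem _ fun s hs => ?_
    have hsN : ∑ i, s i = N := hu s (Finsupp.mem_support_iff.1 hs)
    have h1 : (monomial s (1 : K)).IsHomogeneous N := by
      refine isHomogeneous_monomial 1 ?_
      rw [Finsupp.degree_eq_sum]
      exact hsN
    obtain ⟨r, hr⟩ := Ideal.mem_span_range_iff_exists_fun.1 (hN N le_rfl _ h1)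
    have h3 : bD D (monomial s (1 : K)) = (AddMonoidAlgebra.single s 1 : YR D (n + 1)) := by
      rw [bD_monomial, map_one]
    have h2 : (AddMonoidAlgebra.single s (u.coeff s) : YR D (n + 1)) =
        u.coeff s • bD D (monomial s (1 : K)) := by
      rw [h3, AddMonoidAlgebra.smul_single, smul_eq_mul, mul_one]
    rw [h2]
    apply mx_smul_mem
    rw [← hr, map_sum]
    refine Ideal.sum_mem _ fun i _ => ?_
    rw [map_mul]
    exact Ideal.mul_mem_left _ _ (hall i)
  have h1 : (AddMonoidAlgebra.single (Finsupp.single 0 N) 1 : YR D (n + 1)) ∈ YD D (n + 1) N :=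
    m4_single_mem (by
      rw [Finset.sum_eq_single (0 : Fin (n + 1))]
      · rw [Finsupp.single_eq_same]
      · intro k _ hk
        rw [Finsupp.single_eq_of_ne hk]
      · intro h
        exact absurd (Finset.mem_univ _) h) 1
  have h2 := mx_coeff E hrow hind (hmon _ (theta_mem E h1)) N
  rw [AddMonoidAlgebra.coeff_single, Finsupp.single_eq_same] at h2
  exact one_ne_zero h2

/-- **degeneration** for the degrees `(a_0, b, ..., b)` -/
theorem mixed_degen {K : Type u} [Field K] [IsAlgClosed K] {n b : ℕ} (hb : b.Prime)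
    (hbK : (b.factorial : K) ≠ 0) (a : Fin (n + 1) → ℕ) (h1 : 1 ≤ a 0) (h0 : a 0 ≤ b)
    (hab : ∀ i : Fin n, a i.succ = b) (f : Fin (n + 1) → MvPolynomial (Fin (n + 1)) K)
    (hf : ∀ i, (f i).IsHomogeneous (a i)) (hm : IsMPrimary (Ideal.span (Set.range f))) {d : ℕ}
    (V : Submodule K (MvPolynomial (Fin (n + 1)) K))
    (hV1 : piece (Ideal.span (Set.range f)) (d + 1) ≤ V)
    (hV2 : V ≤ homogeneousSubmodule (Fin (n + 1)) K (d + 1)) :
    ∃ M : Set (Fin (n + 1) →₀ ℕ), PwSet (n + 1) a (d + 1) M ∧ M.ncard = finrank K V ∧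
      ∀ p, finrank K (rc X V (homogeneousSubmodule (Fin (n + 1)) K d) p) ≤ ZS K M d p := by
  have hpos : ∀ i, 1 ≤ a i := by
    intro i
    refine Fin.cases h1 (fun i => ?_) i
    rw [hab]
    exact hb.one_lt.le
  have hle : ∀ i, a i ≤ b := by
    intro i
    refine Fin.cases h0 (fun i => ?_) i
    rw [hab]
  obtain ⟨h, hh, hhm⟩ := X.exists_mult a hpos hle f hf hm
  have hgh : ∀ i, (f i * h i).IsHomogeneous b := by
    intro i
    have h3 := (hf i).mul (hh i)
    rwa [Nat.add_sub_cancel' (hle i)] at h3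
  obtain ⟨L, iL, D, iD, iK, iLD, E, c, hrow, hind, hminor, hE⟩ :=
    exists_point_gen hb hbK (fun i => f i * h i) hgh hhm
  set I := Ideal.span (Set.range f) with hI
  have hfI : ∀ i, f i ∈ I := fun i => Ideal.subset_span ⟨i, rfl⟩
  have hpow : ∀ i, (M.lin (E i) ^ b : YR D (n + 1)) ∈ VD D (piece I b) := by
    intro i
    rw [hE]
    refine Submodule.sum_mem _ fun j _ => Submodule.smul_mem _ _ (Submodule.subset_span
      ⟨f j * h j, ⟨?_, hgh j⟩, rfl⟩)
    exact I.mul_mem_right _ (hfI j)
  obtain ⟨φ, hφ, hθ⟩ : ∃ φ ∈ YD D (n + 1) (a 0), theta E φ = bD D (f 0) := by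
    have h3 : bD D (f 0) ∈ YD D (n + 1) (a 0) := w16_bD_mem (hf 0)
    rw [← map_theta E hrow hind (a 0)] at h3
    obtain ⟨φ, h4, h5⟩ := h3
    exact ⟨φ, h4, h5⟩
  have hφ0 : φ.coeff (Finsupp.single 0 (a 0)) ≠ 0 :=
    mx_first hb.one_lt.le E hrow hind f h c
      (hminor n Fin.succ Fin.succ (Fin.succ_injective n) (Fin.succ_injective n)) hE hhm hφ hθ
  refine ⟨trM D E (d + 2) V, ⟨trM_degree E hrow hind hV2, fun m hmd ⟨i, hi⟩ => ?_⟩,
    trM_ncard E hrow hind (Nat.lt_succ_self _) hV2,
    fun p => trM_cycles E hrow hind (Nat.lt_succ_self _) hV2⟩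
  have hdec : ∀ i, a i ≤ m i → m = (m - Finsupp.single i (a i)) + Finsupp.single i (a i) := by
    intro i hi
    rw [tsub_add_cancel_of_le]
    rwa [Finsupp.single_le_iff]
  have hdeg : ∀ i, a i ≤ m i → ∑ k, (m - Finsupp.single i (a i)) k + a i = d + 1 := by
    intro i hi
    have h3 := m4_deg_add (m - Finsupp.single i (a i)) (Finsupp.single i (a i))
    rw [← hdec i hi, hmd] at h3
    rw [h3]
    congr 1
    rw [Finset.sum_eq_single i]
    · rw [Finsupp.single_eq_same]
    · intro k _ hk
      rw [Finsupp.single_eq_of_ne hk]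
    · intro h
      exact absurd (Finset.mem_univ _) h
  revert hi
  refine Fin.cases (fun hi => ?_) (fun i hi => ?_) i
  · -- the first variable
    set s := m - Finsupp.single 0 (a 0) with hs
    have hms : m = s + Finsupp.single 0 (a 0) := hdec 0 hi
    have hsd : ∑ k, s k + a 0 = d + 1 := hdeg 0 hi
    refine ⟨φ * AddMonoidAlgebra.single s 1, ?_, ?_, fun m' hm' => ?_⟩
    · show theta E _ ∈ VD D V
      apply VD_mono hV1
      rw [mx_theta_mul E hrow, hθ, w16_bD_comm, ← hsd]
      exact y9_mul_mem I (Submodule.subset_span ⟨f 0, ⟨hfI 0, hf 0⟩, rfl⟩) _ (xim_mem E s)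
    · rw [hms, add_comm s, AddMonoidAlgebra.coeff_mul_single_add, mul_one]
      exact hφ0
    · by_contra hcon
      by_cases hex : ∃ t, t + s = m'
      · obtain ⟨t, rfl⟩ := hex
        rw [AddMonoidAlgebra.coeff_mul_single_add, mul_one] at hcon
        have ht : ∑ k, t k = a 0 := hφ t hcon
        rw [hms, deg_wt_add, deg_wt_add] at hm'
        have h3 : wt (d + 2) (Finsupp.single (0 : Fin (n + 1)) (a 0)) = a 0 := by
          rw [wt, Finset.sum_eq_single (0 : Fin (n + 1))]
          · rw [Finsupp.single_eq_same, Fin.val_zero, pow_zero, mul_one]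
          · intro k _ hk
            rw [Finsupp.single_eq_of_ne hk, zero_mul]
          · intro h
            exact absurd (Finset.mem_univ _) h
        have h4 : a 0 ≤ wt (d + 2) t := by
          rw [← ht, wt]
          refine Finset.sum_le_sum fun k _ => Nat.le_mul_of_pos_right _ (Nat.pow_pos ?_)
          omega
        omega
      · push Not at hex
        exact hcon (AddMonoidAlgebra.coeff_mul_single_of_forall_add_ne _ _ hex)
  · -- the other variables
    refine mem_trM E (VD_mono hV1 ?_)
    have h3 := hdec _ hi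
    have h4 := hdeg _ hi
    rw [hab] at h3 h4
    rw [h3, y9_xim_add E hrow, ← h4]
    exact y9_mul_mem I (hpow i.succ) _ (xim_mem E _)

end Vale.Agent.P200.Y
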