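import Vale.Agent.P200.Y.Step

/-! Stable monomial spaces containing the powers. -/

namespace Vale.Agent.P200.Y

open MvPolynomial Module
open Vale.Agent.P200.B Vale.Agent.P200.G Vale.Agent.P200.L Vale.Agent.P200.M Vale.Agent.P200.V
open Vale.Agent.P200.W

universe u

variable {K : Type u} [Field K] {n : ℕ}

/-- the potential is bounded -/
theorem y6_pot_le {a : Fin (n + 1) → ℕ} {d : ℕ} {M : Set (Fin (n + 1) →₀ ℕ)}
    (hM : PwSet (n + 1) a (d + 1) M) (N : ℕ) :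
    ∑ k ∈ Finset.range N, {m | m ∈ M ∧ m (Fin.last n) ≤ k}.ncard ≤
      N * {m : Fin (n + 1) →₀ ℕ | ∑ i, m i = d + 1}.ncard := by
  have h1 : ∀ k ∈ Finset.range N, {m | m ∈ M ∧ m (Fin.last n) ≤ k}.ncard ≤
      {m : Fin (n + 1) →₀ ℕ | ∑ i, m i = d + 1}.ncard := fun k _ =>
    Set.ncard_le_ncard (fun m hm => hM.1 m hm.1) (finite_degree_eq (d + 1))
  have h2 := Finset.sum_le_card_nsmul _ _ _ h1
  rwa [Finset.card_range, smul_eq_mul] at h2

/-- iteration of `pw_step` with the potential `∑_{k < N} |{m ∈ M | m last ≤ k}|`, which is bounded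
(as in `exists_stable_sq`) -/
theorem exists_stable_pw {a : Fin (n + 1) → ℕ} (hA : HasPair K (a (Fin.last n)))
    (h2 : ∀ i, 1 ≤ a i) (hle : ∀ i, a i ≤ a (Fin.last n)) {d : ℕ}
    {M : Set (Fin (n + 1) →₀ ℕ)} (hM : PwSet (n + 1) a (d + 1) M) :
    ∃ M' : Set (Fin (n + 1) →₀ ℕ), PwSet (n + 1) a (d + 1) M' ∧ M'.ncard = M.ncard ∧
      (∀ p, ZS K M d p ≤ ZS K M' d p) ∧ Stab (a (Fin.last n)) M' := by
  obtain ⟨D, _, _, x, y, hx, hz, h1⟩ := hA
  set N := a (Fin.last n) with hN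
  set T : ℕ := N * {m : Fin (n + 1) →₀ ℕ | ∑ i, m i = d + 1}.ncard with hT
  have hbd : ∀ M : Set (Fin (n + 1) →₀ ℕ), PwSet (n + 1) a (d + 1) M →
      ∑ k ∈ Finset.range N, {m | m ∈ M ∧ m (Fin.last n) ≤ k}.ncard ≤ T :=
    fun M hM => y6_pot_le hM N
  -- one step
  have hstep : ∀ M : Set (Fin (n + 1) →₀ ℕ), PwSet (n + 1) a (d + 1) M → ¬ Stab N M →
      ∃ M' : Set (Fin (n + 1) →₀ ℕ), PwSet (n + 1) a (d + 1) M' ∧ M'.ncard = M.ncard ∧
        (∀ p, ZS K M d p ≤ ZS K M' d p) ∧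
        ∑ k ∈ Finset.range N, {m | m ∈ M ∧ m (Fin.last n) ≤ k}.ncard <
          ∑ k ∈ Finset.range N, {m | m ∈ M' ∧ m (Fin.last n) ≤ k}.ncard := by
    intro M hM hst
    rw [Stab] at hst
    push Not at hst
    obtain ⟨i, hi, m0, hm0, j, hj⟩ := hst
    obtain ⟨M', g1, g2, g3, g4, g5⟩ := pw_step (K := K) h2 hle hx hz h1 hM hi hm0 hj
    exact ⟨M', g1, g2, g3, Finset.sum_lt_sum (fun k _ => g4 k)
      ⟨i, Finset.mem_range.2 (by omega), g5⟩⟩
  have key : ∀ t, ∀ M' : Set (Fin (n + 1) →₀ ℕ), PwSet (n + 1) a (d + 1) M' →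
      M'.ncard = M.ncard → (∀ p, ZS K M d p ≤ ZS K M' d p) →
      T - ∑ k ∈ Finset.range N, {m | m ∈ M' ∧ m (Fin.last n) ≤ k}.ncard ≤ t →
      ∃ M' : Set (Fin (n + 1) →₀ ℕ), PwSet (n + 1) a (d + 1) M' ∧ M'.ncard = M.ncard ∧
      (∀ p, ZS K M d p ≤ ZS K M' d p) ∧ Stab N M' := by
    intro t
    induction t with
    | zero =>
      intro M' g1 g2 g3 g4
      refine ⟨M', g1, g2, g3, ?_⟩
      by_contra hst
      obtain ⟨M'', g5, -, -, g6⟩ := hstep M' g1 hst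
      have := hbd M'' g5
      omega
    | succ t ih =>
      intro M' g1 g2 g3 g4
      by_cases hst : Stab N M'
      · exact ⟨M', g1, g2, g3, hst⟩
      · obtain ⟨M'', g5, g6, g7, g8⟩ := hstep M' g1 hst
        have := hbd M'' g5
        exact ih M'' g5 (g6.trans g2) (fun p => (g3 p).trans (g7 p)) (by omega)
  exact key _ M hM rfl (fun _ => le_rfl) le_rfl

end Vale.Agent.P200.Y
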