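import Vale.Agent.P200.Y.Inm

/-! One step of the stabilisation (general exponents version of `sq_step` in `M/SqStab.lean`). -/

namespace Vale.Agent.P200.Y

open MvPolynomial Module
open Vale.Agent.P200.B Vale.Agent.P200.G Vale.Agent.P200.L Vale.Agent.P200.M Vale.Agent.P200.V
open Vale.Agent.P200.W

universe u

variable {K : Type u} [Field K] {n : ℕ}

theorem y5_wsum_zero {D : Type*} [DivisionRing D] {x : D} (hx : x ≠ 0) (y : D) (N : ℕ) :
    wsum x y N 0 ≠ 0 := by
  induction N with
  | zero => exact one_ne_zero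
  | succ N ih => exact mul_ne_zero hx ih

/-- powers of one variable -/
theorem y5_xim_pow {D : Type*} [DivisionRing D] (E : Fin n → Fin n → D)
    (hrow : ∀ i j, i ≠ j → ∀ k l, E i k * E j l = E j l * E i k) (m : Fin n →₀ ℕ) (i : Fin n)
    (k : ℕ) : xim E (m + k • Finsupp.single i 1) = xim E m * M.lin (E i) ^ k := by
  induction k with
  | zero => rw [zero_smul, add_zero, pow_zero, mul_one]
  | succ k ih => rw [succ_nsmul, ← add_assoc, xim_add E hrow, ih, mul_assoc, ← pow_succ]

theorem y5_sum_smul (m s : Fin n →₀ ℕ) : ∑ k, (m + s) k = ∑ k, m k + ∑ k, s k := by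
  rw [← Finset.sum_add_distrib]
  exact Finset.sum_congr rfl fun k _ => Finsupp.add_apply _ _ _

theorem y5_sum_single (i : Fin n) (k : ℕ) : ∑ l, (k • Finsupp.single i 1 : Fin n →₀ ℕ) l = k := by
  rw [Finset.sum_eq_single i]
  · rw [Finsupp.smul_apply, Finsupp.single_eq_same, smul_eq_mul, mul_one]
  · intro l _ hl
    rw [Finsupp.smul_apply, Finsupp.single_eq_of_ne hl, smul_zero]
  · intro h
    exact absurd (Finset.mem_univ i) h

/-- the forms of degree `e` with last exponents at most `k` -/
def y5_W (n e k : ℕ) : Set (Fin (n + 1) →₀ ℕ) := {m | ∑ i, m i = e ∧ m (Fin.last n) ≤ k}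

theorem y5_single_mem {D : Type*} [DivisionRing D] {S : Set (Fin n →₀ ℕ)} {m : Fin n →₀ ℕ}
    (hm : m ∈ S) (c : D) : (AddMonoidAlgebra.single m c : YR D n) ∈ monD D S := by
  classical
  intro m' hm'
  rw [AddMonoidAlgebra.coeff_single, Finsupp.single_apply] at hm'
  by_cases h : m = m'
  · rw [← h]
    exact hm
  · rw [if_neg h] at hm'
    exact absurd rfl hm'

theorem y5_deg_sn_add (m : Fin n →₀ ℕ) (j : Fin n) {t k : ℕ} (h : t ≤ k) :
    ∑ i, sn (m + t • Finsupp.single j 1) (k - t) i = ∑ i, sn m k i := by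
  rw [lex_sum_sn, lex_sum_sn, y5_sum_smul, y5_sum_single]
  omega

/-- `theta` maps the forms with last exponents at most `k` to themselves -/
theorem y5_theta_mem {D : Type*} [DivisionRing D] (j : Fin n) (x y : D) {e k : ℕ}
    {u : YR D (n + 1)} (hu : u ∈ monD D (y5_W n e k)) :
    theta (smat j x y) u ∈ monD D (y5_W n e k) := by
  rw [m4_sum_single u, map_sum]
  refine Submodule.sum_mem _ fun m hm => ?_
  have h1 := hu m (Finsupp.mem_support_iff.1 hm)
  obtain ⟨m', i, rfl⟩ := exists_sn m
  rw [theta_single, xim_smat_sn]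
  refine Submodule.smul_mem _ _ (Submodule.sum_mem _ fun t ht => ?_)
  have ht' : t ≤ i := Nat.lt_succ_iff.1 (Finset.mem_range.1 ht)
  refine y5_single_mem (show _ ∈ y5_W n e k from ⟨?_, ?_⟩) _
  · rw [y5_deg_sn_add m' j ht']
    exact h1.1
  · have h2 := h1.2
    rw [sn_last] at h2 ⊢
    omega

/-- ... bijectively -/
theorem y5_theta_surj {D : Type*} [DivisionRing D] (j : Fin n) {x : D} (y : D) (hx : x ≠ 0)
    {e k : ℕ} {v : YR D (n + 1)} (hv : v ∈ monD D (y5_W n e k)) :
    ∃ u ∈ monD D (y5_W n e k), theta (smat j x y) u = v := by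
  have hfin : Module.Finite D (monD D (y5_W n e k)) := finite_monD _ fun m hm => hm.1
  have hinj := theta_injective (smat j x y) (smat_row j x y) (smat_ind j y hx)
  let f := (theta (smat j x y)).restrict fun u (hu : u ∈ monD D (y5_W n e k)) =>
    y5_theta_mem j x y hu
  have hf : Function.Injective f := by
    rintro ⟨u, hu⟩ ⟨w, hw⟩ h
    exact Subtype.ext (hinj (congrArg Subtype.val h))
  obtain ⟨⟨u, hu⟩, h⟩ := LinearMap.injective_iff_surjective.1 hf ⟨v, hv⟩
  exact ⟨u, hu, congrArg Subtype.val h⟩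

theorem y5_mem_of_theta {D : Type*} [DivisionRing D] (j : Fin n) {x : D} (y : D) (hx : x ≠ 0)
    {e k : ℕ} {u : YR D (n + 1)} (hu : theta (smat j x y) u ∈ monD D (y5_W n e k)) :
    u ∈ monD D (y5_W n e k) := by
  obtain ⟨w, hw, h⟩ := y5_theta_surj j y hx hu
  rwa [← theta_injective (smat j x y) (smat_row j x y) (smat_ind j y hx) h]

/-- one step.  `E = smat j x y`, `M' = trM D E (d + 2) (restrictSupport K M)`.
* `PwSet`: `mem_trM`; `m = m' + a_i e_i`, `xim E m = xim E m' * lin (E i)^(a i)`; for `i ≠ last`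
  `lin (E i)^(a i)` is the monomial `a_i e_i`; for the last variable `lin (E last)^N =
  x^N z^N + y^N x_j^N` (`lin_smat_pow`, `hz`) and `a j ≤ N`; use `mul_single_mem`.
* cardinality and cycles: `trM_ncard`, `trM_cycles`.
* let `U = comap theta (VD M)`.  For every `k` the space `U_k = comap theta (monD {m ∈ M | m last ≤ k})` is
  contained in `U` and supported in last exponents `≤ k` (`theta` maps the forms of degree
  `d+1` with last exponents `≤ k` injectively, hence bijectively, onto themselves) and has dimension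
  `|{m ∈ M | m last ≤ k}|`; so `ncard_inm_le` gives `≤` for every `k`.
* for `k = i`: let `u ∈ U` with `theta u = single (sn m0 (i+1)) 1`; `u` has last exponents `≤ i+1` and its only
  monomial with last exponent `i+1` is `sn m0 (i+1)`, with a coefficient `c ≠ 0` (`c x^(i+1) = 1`).
  `w = u - c sn m0 (i+1)` is the truncation of `u`; `w ∉ U_i`: the coefficient of
  `theta w` at `sn (m0 + e_j) i` is `-c wsum x y (i+1) 1 ≠ 0`, but `sn (m0 + e_j) i ∉ M`.  Hence
  `U_i + D w` has dimension one more. -/
theorem pw_step {D : Type*} [DivisionRing D] [Algebra K D] {a : Fin (n + 1) → ℕ}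
    (h2 : ∀ i, 1 ≤ a i) (hle : ∀ i, a i ≤ a (Fin.last n)) {x y : D} (hx : x ≠ 0)
    (hz : ∀ m, 0 < m → m < a (Fin.last n) → wsum x y (a (Fin.last n)) m = 0)
    (h1 : ∀ i, i + 1 < a (Fin.last n) → wsum x y (i + 1) 1 ≠ 0) {d : ℕ}
    {M : Set (Fin (n + 1) →₀ ℕ)} (hM : PwSet (n + 1) a (d + 1) M) {i : ℕ}
    (hi : i + 1 < a (Fin.last n)) {m0 : Fin n →₀ ℕ} (hm0 : m0 ∈ layS M (i + 1)) {j : Fin n}
    (hj : m0 + Finsupp.single j 1 ∉ layS M i) :
    ∃ M' : Set (Fin (n + 1) →₀ ℕ), PwSet (n + 1) a (d + 1) M' ∧ M'.ncard = M.ncard ∧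
      (∀ p, ZS K M d p ≤ ZS K M' d p) ∧
      (∀ k, {m | m ∈ M ∧ m (Fin.last n) ≤ k}.ncard ≤ {m | m ∈ M' ∧ m (Fin.last n) ≤ k}.ncard) ∧
      {m | m ∈ M ∧ m (Fin.last n) ≤ i}.ncard < {m | m ∈ M' ∧ m (Fin.last n) ≤ i}.ncard := by
  classical
  set E := smat j x y with hE
  have hrow : ∀ i j, i ≠ j → ∀ k l, E i k * E j l = E j l * E i k := smat_row j x y
  have hind : LinearIndependent D E := smat_ind j y hx
  have hVh : restrictSupport K M ≤ homogeneousSubmodule (Fin (n + 1)) K (d + 1) := by
    rw [homogeneousSubmodule_eq_restrict]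
    exact restrictSupport_mono K fun m hm => hM.1 m hm
  have hVD : VD D (restrictSupport K M) = monD D M := VD_restrictSupport M
  have hU := (finrank_comap_theta E hrow hind (VD D (restrictSupport K M)) (VD_le_YD hVh)).1
  -- the part with last exponents at most `k`
  set Mk : ℕ → Set (Fin (n + 1) →₀ ℕ) := fun k => {m | m ∈ M ∧ m (Fin.last n) ≤ k} with hMk
  set Uk : ℕ → Submodule D (YR D (n + 1)) := fun k => (monD D (Mk k)).comap (theta E) with hUk
  have hMkW : ∀ k, Mk k ⊆ y5_W n (d + 1) k := fun k m hm => ⟨hM.1 m hm.1, hm.2⟩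
  have hUW : ∀ k, ∀ u ∈ Uk k, u ∈ monD D (y5_W n (d + 1) k) := fun k u hu =>
    y5_mem_of_theta j y hx (monD_mono (hMkW k) hu)
  have hUU : ∀ k, ∀ u ∈ Uk k, u ∈ (VD D (restrictSupport K M)).comap (theta E) := by
    intro k u hu
    show theta E u ∈ VD D (restrictSupport K M)
    rw [hVD]
    exact monD_mono (fun m hm => hm.1) hu
  have hUrank : ∀ k, finrank D (Uk k) = (Mk k).ncard := by
    intro k
    have h3 : monD D (Mk k) ≤ YD D (n + 1) (d + 1) := fun u hu m hm => hM.1 m (hu m hm).1
    rw [hUk]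
    show finrank D ((monD D (Mk k)).comap (theta E)) = _
    rw [(finrank_comap_theta E hrow hind _ h3).2,
      finrank_monD (e := d + 1) (Mk k) fun m hm => hM.1 m hm.1]
  refine ⟨trM D E (d + 2) (restrictSupport K M), ⟨trM_degree E hrow hind hVh, ?_⟩, ?_, ?_, ?_, ?_⟩
  · intro m hm ⟨i, hi⟩
    apply mem_trM
    rw [hVD]
    set m' := m - a i • Finsupp.single i 1 with hm'
    have h3 : m = m' + a i • Finsupp.single i 1 := by
      ext k
      rw [Finsupp.add_apply, hm', Finsupp.tsub_apply]
      by_cases hk : k = i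
      · rw [hk, Finsupp.smul_apply, Finsupp.single_eq_same, smul_eq_mul, mul_one]
        omega
      · rw [Finsupp.smul_apply, Finsupp.single_eq_of_ne hk, smul_zero]
        omega
    have h4 : ∑ k, m' k + a i = d + 1 := by
      have h5 := hm
      rw [h3, y5_sum_smul, y5_sum_single] at h5
      exact h5
    have h6 : xim E m' ∈ YD D (n + 1) (∑ k, m' k) := xim_mem E m'
    have hsq : ∀ (s : Fin (n + 1) →₀ ℕ) (c : D), ∑ k, s k = a i → (∃ l, a l ≤ s l) →
        xim E m' * AddMonoidAlgebra.single s c ∈ monD D M := by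
      intro s c hs ⟨l, hl⟩
      refine monD_mono ?_ (mul_single_mem h6 s c)
      rintro _ ⟨m'', hm'', rfl⟩
      refine hM.2 _ ?_ ⟨l, ?_⟩
      · rw [y5_sum_smul, hm'', hs, h4]
      · rw [Finsupp.add_apply]
        omega
    rw [h3, y5_xim_pow E hrow]
    by_cases hil : i = Fin.last n
    · rw [hil] at hsq ⊢
      rw [hE, lin_smat_pow, Finset.mul_sum]
      refine Submodule.sum_mem _ fun t ht => ?_
      have ht' : t ≤ a (Fin.last n) := Nat.lt_succ_iff.1 (Finset.mem_range.1 ht)
      rw [← hE]
      by_cases h0 : t = 0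
      · refine hsq _ _ ?_ ⟨Fin.last n, ?_⟩
        · rw [y5_sum_smul, y5_sum_single, y5_sum_single]
          omega
        · rw [h0, Nat.sub_zero, zero_smul, add_zero, Finsupp.smul_apply, Finsupp.single_eq_same,
            smul_eq_mul, mul_one]
      · by_cases h1 : t = a (Fin.last n)
        · refine hsq _ _ ?_ ⟨j.castSucc, ?_⟩
          · rw [y5_sum_smul, y5_sum_single, y5_sum_single]
            omega
          · rw [h1, Nat.sub_self, zero_smul, zero_add, Finsupp.smul_apply,
              Finsupp.single_eq_same, smul_eq_mul, mul_one]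
            exact hle _
        · rw [hz t (Nat.pos_of_ne_zero h0) (lt_of_le_of_ne ht' h1), AddMonoidAlgebra.single_zero,
            mul_zero]
          exact Submodule.zero_mem _
    · rw [hE, smat_ne j x y hil, lin_single, AddMonoidAlgebra.single_pow, one_pow, ← hE]
      refine hsq _ _ (y5_sum_single i (a i)) ⟨i, ?_⟩
      rw [Finsupp.smul_apply, Finsupp.single_eq_same, smul_eq_mul, mul_one]
  · rw [trM_ncard E hrow hind (Nat.lt_succ_self _) hVh,
      finrank_restrictSupport _ hM.finite]
  · intro p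
    exact trM_cycles E hrow hind (Nat.lt_succ_self _) hVh
  · intro k
    have h3 := ncard_inm_le (B := d + 2) (Nat.lt_succ_self _) hU k (Uk k) (by
      intro u hu
      refine ⟨fun m hm => ?_, u, hUU k u hu, fun m _ => rfl⟩
      by_contra h0
      have h4 := (hUW k u hu m h0).2
      omega)
    rw [hUrank] at h3
    exact h3
  · -- the layer `i`
    set c : D := (wsum x y (i + 1) 0)⁻¹ with hc
    have hc0 : c ≠ 0 := inv_ne_zero (y5_wsum_zero hx y _)
    have hc1 : c * wsum x y (i + 1) 0 = 1 := inv_mul_cancel₀ (y5_wsum_zero hx y _)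
    have hdeg : ∑ k, sn m0 (i + 1) k = d + 1 := hM.1 _ hm0
    set r : YR D (n + 1) := AddMonoidAlgebra.single (sn m0 (i + 1)) 1 -
      c • xim E (sn m0 (i + 1)) with hr
    have hr1 : r = -∑ t ∈ Finset.range (i + 1), AddMonoidAlgebra.single
        (sn (m0 + (t + 1) • Finsupp.single j 1) (i + 1 - (t + 1)))
        (c * wsum x y (i + 1) (t + 1)) := by
      rw [hr, hE, xim_smat_sn, Finset.sum_range_succ', Nat.sub_zero, zero_smul, add_zero,
        smul_add, AddMonoidAlgebra.smul_single, smul_eq_mul, hc1, Finset.smul_sum]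
      rw [sub_add_eq_sub_sub_swap, sub_self, zero_sub]
      congr 1
      refine Finset.sum_congr rfl fun t _ => ?_
      rw [AddMonoidAlgebra.smul_single, smul_eq_mul]
    have hrW : r ∈ monD D (y5_W n (d + 1) i) := by
      rw [hr1]
      refine Submodule.neg_mem _ (Submodule.sum_mem _ fun t ht => ?_)
      have ht' : t < i + 1 := Finset.mem_range.1 ht
      refine y5_single_mem (show _ ∈ y5_W n (d + 1) i from ⟨?_, ?_⟩) _
      · rw [y5_deg_sn_add m0 j (by omega), hdeg]
      · rw [sn_last]
        omega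
    have hrc : r.coeff (sn (m0 + Finsupp.single j 1) i) = -(c * wsum x y (i + 1) 1) := by
      rw [hr1, AddMonoidAlgebra.coeff_neg, Finsupp.neg_apply, AddMonoidAlgebra.coeff_sum,
        Finsupp.finsetSum_apply, Finset.sum_eq_single 0]
      · rw [AddMonoidAlgebra.coeff_single, zero_add, one_smul, Nat.add_sub_cancel,
          Finsupp.single_eq_same]
      · intro t ht ht0
        have ht' : t < i + 1 := Finset.mem_range.1 ht
        rw [AddMonoidAlgebra.coeff_single, Finsupp.single_eq_of_ne]
        intro h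
        have := (sn_injective h).2
        omega
      · intro h
        exact absurd (Finset.mem_range.2 (Nat.succ_pos i)) h
    obtain ⟨w, hwW, hw⟩ := y5_theta_surj j y hx hrW
    have hwU : w ∉ Uk i := by
      intro h
      have h3 : r ∈ monD D (Mk i) := by
        rw [← hw]
        exact h
      refine hj (h3 (sn (m0 + Finsupp.single j 1) i) ?_).1
      rw [hrc]
      exact neg_ne_zero.2 (mul_ne_zero hc0 (h1 i hi))
    -- the element with truncation `w`
    have huU : w + c • AddMonoidAlgebra.single (sn m0 (i + 1)) 1 ∈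
        (VD D (restrictSupport K M)).comap (theta E) := by
      show theta E _ ∈ VD D (restrictSupport K M)
      rw [map_add, map_smul, theta_single, one_smul, hw, hr, sub_add_cancel, hVD]
      exact y5_single_mem (show sn m0 (i + 1) ∈ M from hm0) _
    have hwlast : ∀ m : Fin (n + 1) →₀ ℕ, i < m (Fin.last n) → w.coeff m = 0 := by
      intro m hm
      by_contra h0
      have h4 := (hwW m h0).2
      omega
    have h3 := ncard_inm_le (B := d + 2) (Nat.lt_succ_self _) hU i
      (Uk i ⊔ Submodule.span D {w}) (by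
      intro u hu
      obtain ⟨u1, hu1, u2, hu2, rfl⟩ := Submodule.mem_sup.1 hu
      obtain ⟨b, rfl⟩ := Submodule.mem_span_singleton.1 hu2
      refine ⟨fun m hm => ?_, u1 + b • (w + c • AddMonoidAlgebra.single (sn m0 (i + 1)) 1),
        Submodule.add_mem _ (hUU i u1 hu1) (Submodule.smul_mem _ _ huU), fun m hm => ?_⟩
      · have h5 : u1.coeff m = 0 := by
          by_contra h0
          have h4 := (hUW i u1 hu1 m h0).2
          omega
        rw [AddMonoidAlgebra.coeff_add, Finsupp.add_apply, AddMonoidAlgebra.coeff_smul_apply, h5,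
          hwlast m hm, smul_zero, add_zero]
      · have h5 : (AddMonoidAlgebra.single (sn m0 (i + 1)) (1 : D) :
            YR D (n + 1)).coeff m = 0 := by
          rw [AddMonoidAlgebra.coeff_single, Finsupp.single_eq_of_ne]
          rintro rfl
          rw [sn_last] at hm
          omega
        rw [AddMonoidAlgebra.coeff_add, AddMonoidAlgebra.coeff_add, Finsupp.add_apply,
          Finsupp.add_apply, AddMonoidAlgebra.coeff_smul_apply,
          AddMonoidAlgebra.coeff_smul_apply, AddMonoidAlgebra.coeff_add, Finsupp.add_apply,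
          AddMonoidAlgebra.coeff_smul_apply, h5, smul_zero, add_zero])
    have hfU : Module.Finite D (Uk i) := by
      have h4 : Module.Finite D (monD D (y5_W n (d + 1) i)) := finite_monD _ fun m hm => hm.1
      exact Submodule.finiteDimensional_of_le (hUW i)
    have hfw : Module.Finite D (Submodule.span D {w}) := FiniteDimensional.span_singleton D w
    have h4 : finrank D (Uk i) < finrank D (Uk i ⊔ Submodule.span D {w} : Submodule D _) := by
      refine Submodule.finrank_lt_finrank_of_lt (lt_of_le_of_ne le_sup_left fun h => hwU ?_)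
      rw [h]
      exact Submodule.mem_sup_right (Submodule.mem_span_singleton_self w)
    rw [hUrank] at h4
    exact h4.trans_le h3

end Vale.Agent.P200.Y
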