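import Vale.Agent.P200.Y.Stab
import Vale.Agent.P200.Y.LexA
import Vale.Agent.P200.Y.LexB
import Vale.Agent.P200.Y.Layers

/-! The lex-plus-powers inequalities for monomial spaces containing the powers of the variables
(general exponents version of `M/SqZle.lean`). -/

namespace Vale.Agent.P200.Y

open MvPolynomial Module
open Vale.Agent.P200.B Vale.Agent.P200.G Vale.Agent.P200.L Vale.Agent.P200.M Vale.Agent.P200.V
open Vale.Agent.P200.W

universe u

variable {K : Type u} [Field K] {n : ℕ}

/-- **the cycle inequality for monomial spaces containing the powers**, by induction on `n` (as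
`sq_zle`); for `n + 1 = 1` every `M` is stable (there is no `j : Fin 0`). -/
theorem pw_zle (n : ℕ) : ∀ (a : Fin n → ℕ), Monotone a → (∀ i, 2 ≤ a i) →
    (∀ i : Fin n, 0 < i.1 → HasPair K (a i)) → ∀ (d p : ℕ) (M : Set (Fin n →₀ ℕ)),
    PwSet n a (d + 1) M → ZS K M d p ≤ ZS K (pwLex n a (d + 1) M.ncard) d p := by
  induction n with
  | zero =>
    intro a _ _ _ d p M hM
    have h1 : ∀ M : Set (Fin 0 →₀ ℕ), PwSet 0 a (d + 1) M → M = ∅ := by
      intro M hM
      rw [Set.eq_empty_iff_forall_notMem]
      intro m hm
      have h2 := hM.1 m hm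
      rw [Finset.univ_eq_empty, Finset.sum_empty] at h2
      omega
    rw [h1 M hM, h1 _ (pwLex_pwSet 0 a (d + 1) _)]
  | succ n ih =>
    intro a ha h2 hP d p M hM
    rcases p with _ | p
    · exact (zs_zero _ _ d).le
    obtain ⟨M', hM', hc', hz', hst'⟩ : ∃ M' : Set (Fin (n + 1) →₀ ℕ),
        PwSet (n + 1) a (d + 1) M' ∧ M'.ncard = M.ncard ∧
        (∀ p, ZS K M d p ≤ ZS K M' d p) ∧ Stab (a (Fin.last n)) M' := by
      rcases n with _ | n
      · exact ⟨M, hM, rfl, fun _ => le_rfl, fun i _ m _ j => j.elim0⟩
      · exact exists_stable_pw (hP _ (Nat.succ_pos n))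
          (fun i => (by norm_num : (1 : ℕ) ≤ 2).trans (h2 i)) (fun i => ha (Fin.le_last i)) hM
    refine (hz' (p + 1)).trans ?_
    rw [← hc']
    obtain ⟨N, hN⟩ : ∃ N, a (Fin.last n) = N + 1 :=
      ⟨a (Fin.last n) - 1, by have := h2 (Fin.last n); omega⟩
    have IH := ih (fun i => a i.castSucc)
      (fun i j h => ha (Fin.castSucc_le_castSucc_iff.2 h)) (fun i => h2 _)
      (fun i hi => hP i.castSucc hi)
    have hL : PwSet (n + 1) a (d + 1) (pwLex (n + 1) a (d + 1) M'.ncard) := pwLex_pwSet _ _ _ _
    have hLc : (pwLex (n + 1) a (d + 1) M'.ncard).ncard = M'.ncard := ncard_pwLex hM'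
    have hL0M := pw_layer_zero ha h2 hM' hst'
    have hLNM : ∀ e, e + N = d + 1 → pwLex n (fun i => a i.castSucc) e (layS M' N).ncard ⊆
        layS (pwLex (n + 1) a (d + 1) M'.ncard) N := by
      intro e he
      rw [← he] at hM' ⊢
      exact pw_layer_last ha h2 hN hM' hst'
    have hLst : Stab (a (Fin.last n)) (pwLex (n + 1) a (d + 1) M'.ncard) := pwLex_stab
    revert hL hLc hL0M hLNM hLst
    generalize pwLex (n + 1) a (d + 1) M'.ncard = L
    intro hL hLc hL0M hLNM hLst
    obtain ⟨C, hC⟩ := zs_layers_pw K n d p (N + 1) (Nat.succ_le_succ (Nat.zero_le N))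
    rw [hC a M' hN hM', hC a L hN hL, Nat.add_sub_cancel]
    have hM0 : PwSet n (fun i => a i.castSucc) (d + 1) (layS M' 0) :=
      PwSet.layS (D := d + 1) (i := 0) hM'
    have hL0 : PwSet n (fun i => a i.castSucc) (d + 1) (layS L 0) :=
      PwSet.layS (D := d + 1) (i := 0) hL
    have hQ0 : PwSet n (fun i => a i.castSucc) (d + 1)
        (pwLex n (fun i => a i.castSucc) (d + 1) (layS M' 0).ncard) := pwLex_pwSet _ _ _ _
    have hlf : ∀ {M : Set (Fin (n + 1) →₀ ℕ)}, PwSet (n + 1) a (d + 1) M → ∀ i,
        (layS M i).Finite := by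
      intro M hM i
      exact hM.finite.preimage (f := fun m : Fin n →₀ ℕ => sn m i)
        (fun m _ m' _ h => (sn_injective h).1)
    -- the layer `0`
    have i1 := IH d (p + 1) (layS M' 0) hM0
    have hfinQ : Module.Finite K
        (restrictSupport K (pwLex n (fun i => a i.castSucc) (d + 1) (layS M' 0).ncard)) := by
      have := hQ0.finite.to_subtype
      exact Module.Finite.of_basis (basisRestrictSupport K _)
    have i2 := finrank_rc_mono (K := K) (X : Fin n → MvPolynomial (Fin n) K)
      (restrictSupport_mono K hL0M) (homogeneousSubmodule (Fin n) K d) p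
    rw [finrank_restrictSupport _ hQ0.finite, finrank_restrictSupport _ hL0.finite,
      ncard_pwLex hM0] at i2
    -- the layers in the middle
    have i3 : ∑ i ∈ Finset.range N, finrank K (rc X (restrictSupport K (layS M' i))
          (restrictSupport K (layS M' (i + 1))) p) ≤
        ∑ i ∈ Finset.range N, n.choose p * (layS M' (i + 1)).ncard := by
      refine Finset.sum_le_sum fun i _ => ?_
      have hfinM1 : Module.Finite K (restrictSupport K (layS M' (i + 1))) := by
        have := (hlf hM' (i + 1)).to_subtype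
        exact Module.Finite.of_basis (basisRestrictSupport K _)
      have i3 := finrank_rc_le (K := K) (X : Fin n → MvPolynomial (Fin n) K)
        (restrictSupport K (layS M' i)) (restrictSupport K (layS M' (i + 1))) p
      rwa [finrank_restrictSupport _ (hlf hM' (i + 1))] at i3
    have i4 : ∑ i ∈ Finset.range N, finrank K (rc X (restrictSupport K (layS L i))
          (restrictSupport K (layS L (i + 1))) p) =
        ∑ i ∈ Finset.range N, n.choose p * (layS L (i + 1)).ncard := by
      refine Finset.sum_congr rfl fun i hi => ?_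
      refine finrank_rc_stable (K := K) (hlf hL (i + 1)) (fun m hm j => ?_) p
      refine hLst i ?_ m hm j
      rw [hN]
      exact Nat.succ_lt_succ (Finset.mem_range.1 hi)
    have i5 : n.choose p * (layS M' 0).ncard +
          ∑ i ∈ Finset.range N, n.choose p * (layS M' (i + 1)).ncard =
        n.choose p * (layS L 0).ncard +
          ∑ i ∈ Finset.range N, n.choose p * (layS L (i + 1)).ncard := by
      have h1 := hM'.ncard_layS
      have h2 := hL.ncard_layS
      rw [hN, Finset.sum_range_succ'] at h1 h2
      rw [← Finset.mul_sum, ← Finset.mul_sum, ← mul_add, ← mul_add]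
      congr 1
      omega
    have i6 : (if d + 1 < N + 1 then 0 else ZS K (layS M' N) (d + 1 - (N + 1)) p) ≤
        (if d + 1 < N + 1 then 0 else ZS K (layS L N) (d + 1 - (N + 1)) p) := by
      split_ifs with hd
      · exact le_rfl
      · obtain ⟨e, he⟩ : ∃ e, d + 1 = e + 1 + N := ⟨d - N, by omega⟩
        have e1 : d + 1 - (N + 1) = e := by omega
        rw [e1]
        have hMN : PwSet n (fun i => a i.castSucc) (e + 1) (layS M' N) := by
          rw [he] at hM'
          exact hM'.layS
        exact (IH e p (layS M' N) hMN).trans (zs_mono (hLNM (e + 1) he.symm) e p)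
    have i7 : ZS K (pwLex n (fun i => a i.castSucc) (d + 1) (layS M' 0).ncard) d (p + 1) =
        finrank K (rc X (restrictSupport K
          (pwLex n (fun i => a i.castSucc) (d + 1) (layS M' 0).ncard))
          (homogeneousSubmodule (Fin n) K d) (p + 1)) := rfl
    have i8 : ZS K (layS L 0) d (p + 1) = finrank K (rc X (restrictSupport K (layS L 0))
          (homogeneousSubmodule (Fin n) K d) (p + 1)) := rfl
    rw [i7] at i1
    rw [i8, i4]
    omega

end Vale.Agent.P200.Y
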